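import Vale.Agent.P242.H124.Defs

open MeasureTheory Set Metric
open scoped ENNReal

universe u

namespace Vale.Agent.P242.H373

/-- `(X, d, m)` is a complete separable metric measure space, finite on balls and of full support,
which satisfies the curvature-dimension condition `CD(K, n)` or the measure contraction property
`MCP(K, n)`. -/
def CDSpace (X : Type u) [MetricSpace X] [MeasurableSpace X] (K : ℝ) (n : ℕ) (m : Measure X) :
    Prop :=
  CompleteSpace X ∧ TopologicalSpace.SeparableSpace X ∧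
    (∀ (x : X) (r : ℝ), m (ball x r) < ∞) ∧ (∀ (x : X) (r : ℝ), 0 < r → 0 < m (ball x r)) ∧
    (IsCD K n m ∨ H124.IsMCP K n m)

/-- The ball `B(x, r)` is `δ r`-close to the ball of radius `r` of the Euclidean space `ℝⁿ` in the
Gromov-Hausdorff sense: there is a map to `ℝⁿ` which changes the distances of `B(x, r)` by at most
`δ r` and whose image is `δ r`-dense in the ball of radius `r` about the image of `x`. -/
def GHClose {X : Type u} [MetricSpace X] (n : ℕ) (δ : ℝ) (x : X) (r : ℝ) : Prop :=
  ∃ f : X → EuclideanSpace ℝ (Fin n),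
    (∀ y ∈ ball x r, ∀ z ∈ ball x r, |dist (f y) (f z) - dist y z| ≤ δ * r) ∧
    ∀ w ∈ ball (f x) r, ∃ y ∈ ball x r, dist (f y) w ≤ δ * r

/-- The balls `B(x, r)`, `x ∈ B(p, R)`, `r ≤ R`, have almost constant volume ratio: their measure
is `V rⁿ` up to a factor between `1 - δ` and `1 + δ`. -/
def AlmostConstantRatio {X : Type u} [MetricSpace X] [MeasurableSpace X] (m : Measure X) (n : ℕ)
    (δ V : ℝ) (p : X) (R : ℝ) : Prop :=
  ∀ x ∈ ball p R, ∀ r : ℝ, 0 < r → r ≤ R →
    ENNReal.ofReal ((1 - δ) * (V * r ^ n)) ≤ m (ball x r) ∧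
      m (ball x r) ≤ ENNReal.ofReal ((1 + δ) * (V * r ^ n))

/-- The ball `B(p, R)` is almost Euclidean at all its points and all scales `r ≤ R`. -/
def AlmostEuclideanBall {X : Type u} [MetricSpace X] [MeasurableSpace X] (m : Measure X) (n : ℕ)
    (δ V : ℝ) (p : X) (R : ℝ) : Prop :=
  AlmostConstantRatio m n δ V p R ∧ ∀ x ∈ ball p R, ∀ r : ℝ, 0 < r → r ≤ R → GHClose n δ x r

end Vale.Agent.P242.H373
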