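import Vale.Agent.P242.H373.Ultra

set_option linter.all false

open MeasureTheory Set Metric Filter Topology TopologicalSpace
open scoped ENNReal

universe u v

namespace Vale.Agent.P242.H373

open H124

/-- a map to `ℓ²` from an embedding given by coordinates -/
theorem ofEmbeds {X : Type u} [MetricSpace X] {S : Set X} {L : ℝ} (h : EmbedsInHilbert S L) :
    ∃ F : X → EllTwo, ∀ x ∈ S, ∀ z ∈ S, L⁻¹ * dist x z ≤ dist (F x) (F z) ∧
      dist (F x) (F z) ≤ L * dist x z := by
  classical
  obtain ⟨G, hG1, hG2⟩ := h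
  have hmem : ∀ x ∈ S, Memℓp (fun k => G x k) 2 := by
    intro x hx
    apply memℓp_gen
    have h2 : (2 : ℝ≥0∞).toReal = (2 : ℕ) := by norm_num
    rw [h2]
    refine (hG1 x hx).congr fun k => ?_
    rw [Real.rpow_natCast, Real.norm_eq_abs, sq_abs]
  refine ⟨fun x => if hx : x ∈ S then ⟨fun k => G x k, hmem x hx⟩ else 0, fun x hx z hz => ?_⟩
  simp only [dif_pos hx, dif_pos hz]
  rw [ellTwo_dist]
  exact hG2 x hx z hz

/-- embeddability with constant `L` is a property of the finite subsets, up to small errors -/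
theorem embeds_of_approx {Y : Type u} [MetricSpace Y] [SeparableSpace Y] {L : ℝ} (hL : 0 < L)
    (h : ∀ (A : Finset Y) (ε : ℝ), 0 < ε → ∃ F : Y → EllTwo, ∀ a ∈ A, ∀ b ∈ A,
      L⁻¹ * dist a b - ε ≤ dist (F a) (F b) ∧ dist (F a) (F b) ≤ L * dist a b + ε) :
    EmbedsInHilbert (univ : Set Y) L := by
  classical
  rcases isEmpty_or_nonempty Y with hY | ⟨⟨q⟩⟩
  · exact ⟨fun y => (hY.false y).elim, fun y => (hY.false y).elim, fun y => (hY.false y).elim⟩
  have h' : ∀ i : Finset Y × ℕ, ∃ F : Y → EllTwo, ∀ a ∈ insert q i.1, ∀ b ∈ insert q i.1,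
      L⁻¹ * dist a b - 1 / ((i.2 : ℝ) + 1) ≤ dist (F a) (F b) ∧
        dist (F a) (F b) ≤ L * dist a b + 1 / ((i.2 : ℝ) + 1) :=
    fun i => h _ _ (by positivity)
  choose F₀ hF₀ using h'
  let F : Finset Y × ℕ → Y → EllTwo := fun i y => if y ∈ i.1 then F₀ i y - F₀ i q else 0
  let U : Ultrafilter (Finset Y × ℕ) := Ultrafilter.of atTop
  have hU : (U : Filter (Finset Y × ℕ)) ≤ atTop := Ultrafilter.of_le _
  have hb : ∀ y, ∃ C : ℝ, ∀ i, ‖F i y‖ ≤ C := by
    intro y
    refine ⟨L * dist y q + 1, fun i => ?_⟩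
    by_cases hy : y ∈ i.1
    · have h1 := (hF₀ i y (Finset.mem_insert_of_mem hy) q (Finset.mem_insert_self _ _)).2
      have h2 : 1 / ((i.2 : ℝ) + 1) ≤ 1 := by
        rw [div_le_one (by positivity)]
        have : (0 : ℝ) ≤ i.2 := Nat.cast_nonneg _
        linarith only [this]
      simp only [F, if_pos hy]
      rw [← dist_eq_norm]
      linarith only [h1, h2]
    · simp only [F, if_neg hy, norm_zero]
      have := mul_nonneg hL.le (dist_nonneg (x := y) (y := q))
      linarith only [this]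
  obtain ⟨H, i1, i2, i3, G, hG⟩ := exists_ultralimit U F hb
  have hev : ∀ (a b : Y) (ε : ℝ), 0 < ε → ∀ᶠ i in (U : Filter (Finset Y × ℕ)),
      L⁻¹ * dist a b - ε ≤ dist (F i a) (F i b) ∧ dist (F i a) (F i b) ≤ L * dist a b + ε := by
    intro a b ε hε
    obtain ⟨k, hk⟩ := exists_nat_one_div_lt hε
    refine hU ((eventually_ge_atTop (({a, b} : Finset Y), k)).mono fun i hi => ?_)
    have ha : a ∈ i.1 := hi.1 (by simp)
    have hb' : b ∈ i.1 := hi.1 (by simp)
    have h1 := hF₀ i a (Finset.mem_insert_of_mem ha) b (Finset.mem_insert_of_mem hb')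
    have h2 : dist (F i a) (F i b) = dist (F₀ i a) (F₀ i b) := by
      simp only [F, if_pos ha, if_pos hb']
      exact dist_sub_right _ _ _
    have h3 : 1 / ((i.2 : ℝ) + 1) ≤ 1 / ((k : ℝ) + 1) := by
      have h4 : (k : ℝ) ≤ i.2 := by exact_mod_cast hi.2
      apply one_div_le_one_div_of_le (by positivity)
      linarith only [h4]
    rw [h2]
    constructor
    · linarith only [h1.1, h3, hk]
    · linarith only [h1.2, h3, hk]
  have hlow : ∀ a b : Y, L⁻¹ * dist a b ≤ dist (G a) (G b) := by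
    intro a b
    apply le_of_forall_pos_le_add
    intro ε hε
    have := ge_of_tendsto (hG a b) ((hev a b ε hε).mono fun i hi => hi.1)
    linarith only [this]
  have hup : ∀ a b : Y, dist (G a) (G b) ≤ L * dist a b := by
    intro a b
    apply le_of_forall_pos_le_add
    intro ε hε
    exact le_of_tendsto (hG a b) ((hev a b ε hε).mono fun i hi => hi.2)
  have hcont : Continuous G := by
    have : LipschitzWith L.toNNReal G := by
      apply LipschitzWith.of_dist_le_mul
      intro x y
      rw [Real.coe_toNNReal _ hL.le]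
      exact hup x y
    exact this.continuous
  obtain ⟨F', hF'⟩ := exists_map_ellTwo hcont
  refine embedsInHilbert_of (fun y : (univ : Set Y) => F' y) fun x z => ?_
  rw [hF']
  exact ⟨hlow x z, hup x z⟩

end Vale.Agent.P242.H373
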