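import Vale.Agent.P242.H373.Close
import Vale.Agent.P242.H373.Limit

set_option linter.all false

open MeasureTheory Set Metric Filter Topology TopologicalSpace
open scoped ENNReal

universe u v

namespace Vale.Agent.P242.H373

open H124

/-- almost isometric embedding of almost Euclidean balls -/
theorem almost_isometric {n : ℕ} (hn : 2 ≤ n) {ε : ℝ} (hε : 0 < ε) :
    ∃ δ : ℝ, 0 < δ ∧ δ ≤ 1 / 4 ∧ ∀ {X : Type u} [MetricSpace X] [CompleteSpace X]
      [SeparableSpace X] [MeasurableSpace X] [BorelSpace X] (m : Measure X) (K R V : ℝ),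
      (∀ (x : X) (r : ℝ), m (ball x r) < ∞) → (∀ (x : X) (r : ℝ), 0 < r → 0 < m (ball x r)) →
      (IsCD K n m ∨ IsMCP K n m) → 0 < R → -δ ≤ K * R ^ 2 → 0 < V → ∀ p : X,
      AlmostConstantRatio m n δ V p R →
      (∀ x ∈ ball p R, ∀ r : ℝ, 0 < r → r ≤ R → GHClose n δ x r) →
      EmbedsInHilbert (ball p (δ * R)) (1 + ε) := by
  -- the accuracy of the average
  obtain ⟨ε', hε'0, hε'1, hε'up, hε'down⟩ : ∃ ε' : ℝ, 0 < ε' ∧ ε' ≤ 1 / 4 ∧
      1 + ε' ≤ (1 + ε) ^ 2 ∧ ((1 + ε)⁻¹) ^ 2 ≤ 1 - ε' := by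
    refine ⟨min ε 1 / 4, by positivity, ?_, ?_, ?_⟩
    · have := min_le_right ε 1
      linarith only [this]
    · have := min_le_left ε 1
      nlinarith only [this, hε]
    · have h1 := min_le_left ε 1
      have h2 := min_le_right ε 1
      have h3 : 0 < min ε 1 := lt_min hε one_pos
      rw [inv_pow, inv_le_iff_one_le_mul₀ (by positivity)]
      have h4 : (1 + min ε 1) ^ 2 ≤ (1 + ε) ^ 2 :=
        pow_le_pow_left₀ (by positivity) (by linarith only [h1]) 2
      have h5 : 1 ≤ (1 - min ε 1 / 4) * (1 + min ε 1) ^ 2 := by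
        nlinarith only [h2, h3, mul_pos h3 h3]
      exact h5.trans (mul_le_mul_of_nonneg_left h4 (by linarith only [h2]))
  obtain ⟨δ, a, hδ0, hδ1, ha0, hmain⟩ := ratio_close.{u} hn hε'0
  refine ⟨δ, hδ0, hδ1, ?_⟩
  intro X _ _ _ _ _ m K R V hfin hpos hK hR hKR hV p hratio hGH
  have hsc : SecondCountableTopology X := UniformSpace.secondCountable_of_separable X
  set A : Set X := ball p (R / 2) with hA
  set M : ℝ := V * (R / 2) ^ n with hM
  have hM0 : 0 < M := by positivity
  have haM : 0 < a * M := by positivity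
  set k : ℝ := (√(a * M))⁻¹ with hk
  have hk0 : 0 < k := by rw [hk]; positivity
  have hk2 : k ^ 2 * (a * M) = 1 := by
    rw [hk, inv_pow, Real.sq_sqrt haM.le, inv_mul_cancel₀ haM.ne']
  have hfinA : IsFiniteMeasure (m.restrict A) := ⟨by
    rw [Measure.restrict_apply_univ]; exact hfin _ _⟩
  have hcont : ∀ x : X, Continuous fun y => k * (dist x y - dist p y) := fun x =>
    continuous_const.mul ((continuous_const.dist continuous_id).sub
      (continuous_const.dist continuous_id))
  have hmem : ∀ x : X, MemLp (fun y => k * (dist x y - dist p y)) 2 (m.restrict A) := by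
    intro x
    apply MemLp.of_bound (hcont x).measurable.aestronglyMeasurable (k * dist x p)
    refine Eventually.of_forall fun y => ?_
    rw [norm_mul, Real.norm_eq_abs, abs_of_pos hk0, Real.norm_eq_abs]
    exact mul_le_mul_of_nonneg_left (abs_dist_sub_le x p y) hk0.le
  let F : X → Lp ℝ 2 (m.restrict A) := fun x => (hmem x).toLp _
  have hF : ∀ x z : X, x ≠ z → dist (F x) (F z) ^ 2 =
      k ^ 2 * dist x z ^ 2 * ∫ y in A, ((dist x y - dist z y) / dist x z) ^ 2 ∂m := by
    intro x z hxz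
    have hd : 0 < dist x z := dist_pos.2 hxz
    rw [dist_eq_norm]
    show ‖(hmem x).toLp _ - (hmem z).toLp _‖ ^ 2 = _
    rw [← MemLp.toLp_sub, norm_sq_toLp, ← integral_const_mul]
    apply integral_congr_ae
    refine Eventually.of_forall fun y => ?_
    show (k * (dist x y - dist p y) - k * (dist z y - dist p y)) ^ 2 =
      k ^ 2 * dist x z ^ 2 * ((dist x y - dist z y) / dist x z) ^ 2
    field_simp
    ring
  have hbounds : ∀ x ∈ ball p (δ * R), ∀ z ∈ ball p (δ * R),
      (1 + ε)⁻¹ * dist x z ≤ dist (F x) (F z) ∧ dist (F x) (F z) ≤ (1 + ε) * dist x z := by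
    intro x hx z hz
    rcases eq_or_ne x z with rfl | hne
    · simp
    have h1 := abs_le.1 (hmain m K R V hfin hpos hK hR hKR hV p hratio hGH x hx z hz hne)
    have h2 := hF x z hne
    rw [← hA, ← hM] at h1
    set G : ℝ := ∫ y in A, ((dist x y - dist z y) / dist x z) ^ 2 ∂m with hG
    have hd2 : 0 ≤ k ^ 2 * dist x z ^ 2 := by positivity
    have h3 : (1 - ε') * dist x z ^ 2 ≤ dist (F x) (F z) ^ 2 := by
      rw [h2]
      calc (1 - ε') * dist x z ^ 2 = k ^ 2 * dist x z ^ 2 * (a * M - ε' * (a * M)) := by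
            have : k ^ 2 * dist x z ^ 2 * (a * M - ε' * (a * M)) =
              (k ^ 2 * (a * M)) * (1 - ε') * dist x z ^ 2 := by ring
            rw [this, hk2]
            ring
        _ ≤ _ := mul_le_mul_of_nonneg_left (by linarith only [h1.1]) hd2
    have h4 : dist (F x) (F z) ^ 2 ≤ (1 + ε') * dist x z ^ 2 := by
      rw [h2]
      calc k ^ 2 * dist x z ^ 2 * G ≤ k ^ 2 * dist x z ^ 2 * (a * M + ε' * (a * M)) :=
            mul_le_mul_of_nonneg_left (by linarith only [h1.2]) hd2
        _ = (1 + ε') * dist x z ^ 2 := by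
            have : k ^ 2 * dist x z ^ 2 * (a * M + ε' * (a * M)) =
              (k ^ 2 * (a * M)) * (1 + ε') * dist x z ^ 2 := by ring
            rw [this, hk2]
            ring
    constructor
    · apply le_of_sq_le_sq _ dist_nonneg
      rw [mul_pow]
      exact (mul_le_mul_of_nonneg_right hε'down (sq_nonneg _)).trans h3
    · apply le_of_sq_le_sq _ (by positivity)
      rw [mul_pow]
      exact h4.trans (mul_le_mul_of_nonneg_right hε'up (sq_nonneg _))
  have hcontF : Continuous fun x : ball p (δ * R) => F x := by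
    have : LipschitzWith (1 + ε).toNNReal fun x : ball p (δ * R) => F x := by
      apply LipschitzWith.of_dist_le_mul
      intro x y
      rw [Real.coe_toNNReal _ (by positivity)]
      exact (hbounds x x.2 y y.2).2
    exact this.continuous
  obtain ⟨F', hF'⟩ := exists_map_ellTwo hcontF
  refine embedsInHilbert_of F' fun x z => ?_
  rw [hF']
  exact hbounds x x.2 z z.2

/-- points near which the space is almost Euclidean to any accuracy -/
theorem regular_points {n : ℕ} (hn : 2 ≤ n) {X : Type u} [MetricSpace X] [CompleteSpace X]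
    [SeparableSpace X] [MeasurableSpace X] [BorelSpace X] {m : Measure X} {K : ℝ}
    (hfin : ∀ (x : X) (r : ℝ), m (ball x r) < ∞) (hpos : ∀ (x : X) (r : ℝ), 0 < r → 0 < m (ball x r))
    (hK : IsCD K n m ∨ IsMCP K n m) {p : X}
    (hreg : ∀ δ : ℝ, 0 < δ → ∃ R V : ℝ, 0 < R ∧ 0 < V ∧ AlmostEuclideanBall m n δ V p R)
    {ε : ℝ} (hε : 0 < ε) :
    ∃ U : Set X, IsOpen U ∧ p ∈ U ∧ EmbedsInHilbert U (1 + ε) := by
  obtain ⟨δ, hδ0, hδ1, h⟩ := almost_isometric.{u} hn hε
  obtain ⟨R, V, hR, hV, h1, h2⟩ := hreg δ hδ0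
  set R' : ℝ := min R (min 1 (δ / (|K| + 1))) with hR'
  have hR'0 : 0 < R' := by rw [hR']; positivity
  have hR'R : R' ≤ R := min_le_left _ _
  have hR'1 : R' ≤ 1 := (min_le_right _ _).trans (min_le_left _ _)
  have hR'K : R' * (|K| + 1) ≤ δ := by
    have : R' ≤ δ / (|K| + 1) := (min_le_right _ _).trans (min_le_right _ _)
    rwa [le_div_iff₀ (by positivity)] at this
  have hKR : -δ ≤ K * R' ^ 2 := by
    have h4 : |K| * R' ^ 2 ≤ δ := by
      calc |K| * R' ^ 2 = |K| * R' * R' := by ring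
        _ ≤ |K| * R' * 1 := mul_le_mul_of_nonneg_left hR'1 (by positivity)
        _ ≤ δ := by linarith only [hR'K, hR'0]
    have h5 : -|K| * R' ^ 2 ≤ K * R' ^ 2 :=
      mul_le_mul_of_nonneg_right (neg_abs_le K) (sq_nonneg R')
    linarith only [h4, h5]
  refine ⟨ball p (δ * R'), isOpen_ball, mem_ball_self (by positivity), ?_⟩
  refine h m K R' V hfin hpos hK hR'0 hKR hV p ?_ ?_
  · intro x hx r hr hrR
    exact h1 x (ball_subset_ball hR'R hx) r hr (hrR.trans hR'R)
  · intro x hx r hr hrR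
    exact h2 x (ball_subset_ball hR'R hx) r hr (hrR.trans hR'R)

/-- global almost isometric embedding -/
theorem global_of {n : ℕ} {X : Type u} [MetricSpace X] [SeparableSpace X]
    [MeasurableSpace X] [BorelSpace X] {m : Measure X} {K ε δ : ℝ} (hδ0 : 0 < δ) (hε : 0 < ε)
    (h : ∀ R V : ℝ, 0 < R → -δ ≤ K * R ^ 2 → 0 < V → ∀ p : X,
      AlmostConstantRatio m n δ V p R →
      (∀ x ∈ ball p R, ∀ r : ℝ, 0 < r → r ≤ R → GHClose n δ x r) →
      EmbedsInHilbert (ball p (δ * R)) (1 + ε))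
    (hK0 : 0 ≤ K) (p : X)
    (hgrow : ∀ R₀ : ℝ, ∃ R V : ℝ, R₀ < R ∧ 0 < V ∧ AlmostEuclideanBall m n δ V p R) :
    EmbedsInHilbert (univ : Set X) (1 + ε) := by
  classical
  apply embeds_of_approx (by positivity)
  intro A t ht
  have hsum : 0 ≤ ∑ a ∈ A, dist a p := Finset.sum_nonneg fun i _ => dist_nonneg
  obtain ⟨R, V, hR1, hV, h1, h2⟩ := hgrow ((1 + ∑ a ∈ A, dist a p) / δ)
  rw [div_lt_iff₀ hδ0] at hR1
  have hR0 : 0 < R := by
    by_contra hcon
    have := mul_nonpos_of_nonpos_of_nonneg (not_lt.1 hcon) hδ0.le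
    linarith only [this, hR1, hsum]
  have h3 := h R V hR0 (by
    have := mul_nonneg hK0 (sq_nonneg R)
    linarith only [this, hδ0]) hV p h1 h2
  obtain ⟨G, hG⟩ := ofEmbeds h3
  refine ⟨G, fun a ha b hb => ?_⟩
  have hmem : ∀ a ∈ A, a ∈ ball p (δ * R) := by
    intro a ha
    have := Finset.single_le_sum (f := fun a => dist a p) (fun i _ => dist_nonneg) ha
    rw [mem_ball]
    linarith only [this, hR1]
  have h4 := hG a (hmem a ha) b (hmem b hb)
  constructor
  · linarith only [h4.1, ht]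
  · linarith only [h4.2, ht]

end Vale.Agent.P242.H373
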