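import Vale.Agent.P242.H373.Scale
import Mathlib.MeasureTheory.Integral.Layercake

set_option linter.all false

open MeasureTheory Set Metric Filter Topology TopologicalSpace
open scoped ENNReal

universe u v

namespace Vale.Agent.P242.H373

open H124

/-- comparison of the integrals of antitone functions from the comparison of the level sets -/
theorem cake {X : Type u} [MeasurableSpace X] {m : Measure X} {A B : Set X}
    (hA : MeasurableSet A) (hB : MeasurableSet B)
    {g : X → ℝ} (hg : Measurable g) {c : ℝ≥0∞} {h C : ℝ} (hC : ∀ y ∈ A, g y < C)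
    (hyp : ∀ u : ℝ, c * m (A ∩ {y | g y < u}) ≤ m (B ∩ {y | g y < u + h}))
    {φ : ℝ → ℝ} (hφ : Continuous φ) (hanti : Antitone φ) (h0 : ∀ u, 0 ≤ φ u) :
    c * ∫⁻ y in A, ENNReal.ofReal (φ (g y)) ∂m ≤
      ∫⁻ y in B, ENNReal.ofReal (φ (g y - h)) ∂m := by
  have hm1 : Measurable fun y => φ (g y) := hφ.measurable.comp hg
  have hm2 : Measurable fun y => φ (g y - h) := hφ.measurable.comp (hg.sub_const h)
  rw [lintegral_eq_lintegral_meas_lt (m.restrict A) (Eventually.of_forall fun y => h0 _)
      hm1.aemeasurable,
    lintegral_eq_lintegral_meas_lt (m.restrict B) (Eventually.of_forall fun y => h0 _)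
      hm2.aemeasurable]
  refine (lintegral_const_mul_le _ _).trans (lintegral_mono fun t => ?_)
  show c * (m.restrict A) {y | t < φ (g y)} ≤ (m.restrict B) {y | t < φ (g y - h)}
  rw [Measure.restrict_apply (measurableSet_lt measurable_const hm1),
    Measure.restrict_apply (measurableSet_lt measurable_const hm2), inter_comm, inter_comm _ B]
  by_cases hT : ∃ u, φ u ≤ t
  · -- the threshold
    by_cases hT2 : ∃ u, t < φ u
    · obtain ⟨u₁, hu₁⟩ := hT
      obtain ⟨u₂, hu₂⟩ := hT2
      set T : Set ℝ := {u | t < φ u} with hTdef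
      have hbdd : BddAbove T := ⟨u₁, fun u hu => by
        by_contra hcon
        have := hanti (not_le.1 hcon).le
        have hu' : t < φ u := hu
        linarith only [this, hu', hu₁]⟩
      have hne : T.Nonempty := ⟨u₂, hu₂⟩
      have hopen : IsOpen T := isOpen_lt continuous_const hφ
      have hiff : ∀ u, t < φ u ↔ u < sSup T := by
        intro u
        constructor
        · intro hu
          obtain ⟨ε, hε, hball⟩ := Metric.isOpen_iff.1 hopen u hu
          have h1 : u + ε / 2 ∈ T := hball (by
            rw [mem_ball, Real.dist_eq]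
            have : u + ε / 2 - u = ε / 2 := by ring
            rw [this, abs_of_pos (by positivity)]
            linarith only [hε])
          have := le_csSup hbdd h1
          linarith only [this, hε]
        · intro hu
          obtain ⟨v, hv, huv⟩ := exists_lt_of_lt_csSup hne hu
          exact lt_of_lt_of_le hv (hanti huv.le)
      simp only [hiff]
      refine (hyp (sSup T)).trans (measure_mono fun y hy => ⟨hy.1, ?_⟩)
      have := hy.2
      simp only [mem_setOf_eq] at this ⊢
      linarith only [this]
    · push Not at hT2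
      have : {y | t < φ (g y)} = ∅ := by
        ext y
        simp only [mem_setOf_eq, mem_empty_iff_false, iff_false, not_lt]
        exact hT2 _
      rw [this, inter_empty, measure_empty, mul_zero]
      exact zero_le
  · push Not at hT
    have h1 : A ∩ {y | t < φ (g y)} ⊆ A ∩ {y | g y < C} := fun y hy => ⟨hy.1, hC y hy.1⟩
    refine (mul_le_mul_right (measure_mono h1) c).trans ((hyp C).trans (measure_mono ?_))
    exact fun y hy => ⟨hy.1, hT _⟩

/-- the contraction property for the level sets of `d(x, ·) - d(x', ·)` -/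
theorem level {X : Type u} [MetricSpace X] [MeasurableSpace X] [BorelSpace X] {m : Measure X}
    {N Q R₀ : ℝ} (h : Contr m N Q R₀) (hfin : ∀ (x : X) (r : ℝ), m (ball x r) < ∞) (hQ0 : 0 ≤ Q)
    {x x' : X} {R κ t : ℝ} (hR : 0 < R) (hRR : R ≤ R₀) (hκ : 0 < κ) (hκR : κ ≤ R₀)
    (ht0 : 0 < t) (ht1 : t < 1) {A : Set X} (hA : MeasurableSet A) (hAsub : A ⊆ ball x R) (u : ℝ) :
    ENNReal.ofReal (Q * t ^ N) * m (A ∩ {y | dist x y - dist x' y < u}) ≤
      m (ball x (t * R + 3 * κ) ∩ {y | dist x y - dist x' y < u + 4 * κ}) := by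
  have hcont : Continuous fun y : X => dist x y - dist x' y :=
    (continuous_const.dist continuous_id).sub (continuous_const.dist continuous_id)
  have hAm : MeasurableSet (A ∩ {y | dist x y - dist x' y < u}) :=
    hA.inter (isOpen_lt hcont continuous_const).measurableSet
  have h1 := h x R κ t hR hRR hκ hκR ht0 ht1 _ hAm (inter_subset_left.trans hAsub)
  have hsub : midSet (ball x κ) (A ∩ {y | dist x y - dist x' y < u}) t κ ⊆
      ball x (t * R + 3 * κ) ∩ {y | dist x y - dist x' y < u + 4 * κ} := by
    apply subset_inter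
    · exact midSet_subset ht0 ht1 hκ (inter_subset_left.trans hAsub)
    · rintro z ⟨x₀, hx₀, y, ⟨hyA, hyu⟩, h1, h2⟩
      rw [mem_ball] at hx₀
      simp only [mem_setOf_eq] at hyu ⊢
      have a1 := (abs_lt.1 h1).2
      have a2 := (abs_lt.1 h2).2
      have a3 := dist_triangle x x₀ z
      rw [dist_comm x x₀] at a3
      have a4 := dist_triangle x₀ x y
      have a5 := dist_triangle x' z y
      linarith only [hx₀, hyu, a1, a2, a3, a4, a5]
  have hfinA : m (A ∩ {y | dist x y - dist x' y < u}) ≠ ∞ :=
    ((measure_mono (inter_subset_left.trans hAsub)).trans_lt (hfin x R)).ne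
  have hfinM : m (midSet (ball x κ) (A ∩ {y | dist x y - dist x' y < u}) t κ) ≠ ∞ :=
    ((measure_mono (hsub.trans inter_subset_left)).trans_lt (hfin _ _)).ne
  refine le_trans ?_ (measure_mono hsub)
  rw [Measure.real, Measure.real] at h1
  have h2 := ENNReal.ofReal_le_ofReal h1
  rwa [ENNReal.ofReal_mul (by positivity), ENNReal.ofReal_toReal hfinA,
    ENNReal.ofReal_toReal hfinM] at h2

end Vale.Agent.P242.H373
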