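import Vale.Agent.P242.H373.Cake
import Mathlib.MeasureTheory.Measure.Lebesgue.EqHaar
import Mathlib.MeasureTheory.Measure.Haar.InnerProductSpace
import Mathlib.Analysis.InnerProductSpace.Projection.Reflection

set_option linter.all false

open MeasureTheory Set Metric Filter Topology TopologicalSpace
open scoped ENNReal

universe u v

namespace Vale.Agent.P242.H373

/-- Euclidean space -/
abbrev Eu (n : ℕ) : Type := EuclideanSpace ℝ (Fin n)

/-- measurable approximation of the identity with countably many values -/
theorem measurable_approx {X : Type u} [MetricSpace X] [SeparableSpace X] [Nonempty X]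
    [MeasurableSpace X] [BorelSpace X] {θ : ℝ} (hθ : 0 < θ) :
    ∃ π : X → X, (∀ z, dist z (π z) < θ) ∧ ∀ {n : ℕ} (f : X → Eu n), Measurable (f ∘ π) := by
  classical
  have hex : ∀ z : X, ∃ k, dist z (denseSeq X k) < θ := fun z =>
    (denseRange_denseSeq X).exists_dist_lt z hθ
  refine ⟨fun z => denseSeq X (Nat.find (hex z)), fun z => Nat.find_spec (hex z), fun f => ?_⟩
  have h1 : Measurable fun z => Nat.find (hex z) := measurable_find hex fun k =>
    (isOpen_lt (continuous_id.dist continuous_const) continuous_const).measurableSet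
  exact (measurable_from_nat (f := fun k => f (denseSeq X k))).comp h1

/-- Christensen's averaging: comparison of integrals along a map to Euclidean space -/
theorem christ {X : Type u} [MeasurableSpace X] {m : Measure X} [SFinite m] {n : ℕ} {f : X → Eu n}
    (hf : Measurable f) {B : Set X} (hB : MeasurableSet B) {c : Eu n} {τ ρ : ℝ} {C : ℝ≥0∞}
    {h : X → ℝ≥0∞} (hh : Measurable h) {hE : Eu n → ℝ≥0∞} (hhE : Measurable hE)
    (h1 : ∀ z ∈ B, ∀ w, dist w (f z) < τ → w ∈ ball c ρ ∧ h z ≤ hE w)
    (h2 : ∀ w ∈ ball c ρ, m (B ∩ {z | dist w (f z) < τ}) ≤ C) :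
    volume (ball (0 : Eu n) τ) * ∫⁻ z in B, h z ∂m ≤ C * ∫⁻ w in ball c ρ, hE w := by
  have hSm : MeasurableSet {p : X × Eu n | dist p.2 (f p.1) < τ} :=
    measurableSet_lt (measurable_snd.dist (hf.comp measurable_fst)) measurable_const
  have hgm : Measurable ((ball c ρ).indicator hE) := hhE.indicator measurableSet_ball
  have hKm : Measurable ({p : X × Eu n | dist p.2 (f p.1) < τ}.indicator
      (fun p => (ball c ρ).indicator hE p.2)) := (hgm.comp measurable_snd).indicator hSm
  calc volume (ball (0 : Eu n) τ) * ∫⁻ z in B, h z ∂m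
      = ∫⁻ z in B, volume (ball (0 : Eu n) τ) * h z ∂m := (lintegral_const_mul _ hh).symm
    _ ≤ ∫⁻ z in B, (∫⁻ w : Eu n, {p : X × Eu n | dist p.2 (f p.1) < τ}.indicator
          (fun p => (ball c ρ).indicator hE p.2) (z, w)) ∂m := by
        apply setLIntegral_mono' hB
        intro z hz
        have e1 : volume (ball (0 : Eu n) τ) * h z = ∫⁻ w in ball (f z) τ, h z := by
          rw [lintegral_const, Measure.restrict_apply_univ,
            Measure.addHaar_ball_center volume (f z) τ, mul_comm]
        rw [e1, ← lintegral_indicator measurableSet_ball]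
        apply lintegral_mono
        intro w
        by_cases hw : w ∈ ball (f z) τ
        · have hw' : (z, w) ∈ {p : X × Eu n | dist p.2 (f p.1) < τ} := hw
          obtain ⟨h3, h4⟩ := h1 z hz w hw
          rw [indicator_of_mem hw]
          show h z ≤ {p : X × Eu n | dist p.2 (f p.1) < τ}.indicator
            (fun p => (ball c ρ).indicator hE p.2) (z, w)
          rw [indicator_of_mem hw', indicator_of_mem h3]
          exact h4
        · rw [indicator_of_notMem hw]
          exact zero_le
    _ = ∫⁻ w : Eu n, ∫⁻ z in B, {p : X × Eu n | dist p.2 (f p.1) < τ}.indicator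
          (fun p => (ball c ρ).indicator hE p.2) (z, w) ∂m :=
        lintegral_lintegral_swap (f := fun z w => {p : X × Eu n | dist p.2 (f p.1) < τ}.indicator
          (fun p => (ball c ρ).indicator hE p.2) (z, w)) hKm.aemeasurable
    _ ≤ ∫⁻ w : Eu n, C * (ball c ρ).indicator hE w := by
        apply lintegral_mono
        intro w
        by_cases hw : w ∈ ball c ρ
        · have e2 : ∀ z, {p : X × Eu n | dist p.2 (f p.1) < τ}.indicator
              (fun p => (ball c ρ).indicator hE p.2) (z, w) =
              {z | dist w (f z) < τ}.indicator (fun _ => (ball c ρ).indicator hE w) z := by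
            intro z
            by_cases hz : dist w (f z) < τ
            · rw [indicator_of_mem (show (z, w) ∈ {p : X × Eu n | dist p.2 (f p.1) < τ} from hz),
                indicator_of_mem (show z ∈ {z | dist w (f z) < τ} from hz)]
            · rw [indicator_of_notMem (show (z, w) ∉ {p : X × Eu n | dist p.2 (f p.1) < τ} from hz),
                indicator_of_notMem (show z ∉ {z | dist w (f z) < τ} from hz)]
          simp only [e2]
          have hm3 : MeasurableSet {z | dist w (f z) < τ} :=
            measurableSet_lt (measurable_const.dist hf) measurable_const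
          rw [lintegral_indicator hm3, lintegral_const, Measure.restrict_apply_univ,
            Measure.restrict_apply hm3, mul_comm, inter_comm]
          exact mul_le_mul_left (h2 w hw) _
        · have e3 : ∀ z, {p : X × Eu n | dist p.2 (f p.1) < τ}.indicator
              (fun p => (ball c ρ).indicator hE p.2) (z, w) = 0 := by
            intro z
            rw [indicator_apply]
            split_ifs
            · exact indicator_of_notMem hw _
            · rfl
          simp only [e3, lintegral_zero]
          exact zero_le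
    _ = C * ∫⁻ w in ball c ρ, hE w := by
        rw [lintegral_const_mul _ hgm, lintegral_indicator measurableSet_ball]

/-- linear isometries act transitively on the unit sphere -/
theorem exists_iso {n : ℕ} {e e' : Eu n} (h : ‖e‖ = ‖e'‖) : ∃ φ : Eu n ≃ₗᵢ[ℝ] Eu n, φ e = e' :=
  ⟨(ℝ ∙ (e - e'))ᗮ.reflection, Submodule.reflection_sub h⟩

theorem rot {n : ℕ} {e e' : Eu n} (h : ‖e‖ = ‖e'‖) {F : ℝ → ℝ≥0∞} (hF : Measurable F) (ρ : ℝ) :
    ∫⁻ w in ball (0 : Eu n) ρ, F (‖w‖ - ‖w - e‖) = ∫⁻ w in ball (0 : Eu n) ρ, F (‖w‖ - ‖w - e'‖) := by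
  obtain ⟨φ, hφ⟩ := exists_iso h
  have h1 := φ.measurePreserving.setLIntegral_comp_preimage_emb
    φ.toHomeomorph.measurableEmbedding (fun w => F (‖w‖ - ‖w - e'‖)) (ball (0 : Eu n) ρ)
  have h2 : φ ⁻¹' ball (0 : Eu n) ρ = ball 0 ρ := by
    ext w
    simp
  rw [h2] at h1
  rw [← h1]
  refine lintegral_congr fun w => ?_
  rw [← hφ, ← map_sub, φ.norm_map, φ.norm_map]

theorem scal {n : ℕ} (e : Eu n) {F : ℝ → ℝ≥0∞} (hF : Measurable F) {ρ s : ℝ} (hs : 0 < s) :
    ∫⁻ w in ball (0 : Eu n) (ρ * s), F ((‖w‖ - ‖w - s • e‖) / s) =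
      ENNReal.ofReal (s ^ n) * ∫⁻ w in ball (0 : Eu n) ρ, F (‖w‖ - ‖w - e‖) := by
  have hG : Measurable ((ball (0 : Eu n) (ρ * s)).indicator
      fun w => F ((‖w‖ - ‖w - s • e‖) / s)) := by
    apply Measurable.indicator _ measurableSet_ball
    apply hF.comp
    exact (measurable_norm.sub (measurable_id.sub_const _).norm).div_const _
  have h1 := lintegral_map (μ := (volume : Measure (Eu n))) hG (measurable_const_smul s)
  have h2 : (volume : Measure (Eu n)).map (fun w => s • w) =
      ENNReal.ofReal |(s ^ Module.finrank ℝ (Eu n))⁻¹| • (volume : Measure (Eu n)) :=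
    Measure.map_addHaar_smul _ hs.ne'
  rw [h2, lintegral_smul_measure, finrank_euclideanSpace_fin, abs_of_pos (by positivity),
    smul_eq_mul] at h1
  have h3 : ∀ w : Eu n, (ball (0 : Eu n) (ρ * s)).indicator
      (fun w => F ((‖w‖ - ‖w - s • e‖) / s)) (s • w) =
      (ball (0 : Eu n) ρ).indicator (fun w => F (‖w‖ - ‖w - e‖)) w := by
    intro w
    have hiff : s • w ∈ ball (0 : Eu n) (ρ * s) ↔ w ∈ ball (0 : Eu n) ρ := by
      rw [mem_ball_zero_iff, mem_ball_zero_iff, norm_smul, Real.norm_eq_abs, abs_of_pos hs,
        mul_comm]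
      exact mul_lt_mul_iff_left₀ hs
    by_cases hw : w ∈ ball (0 : Eu n) ρ
    · rw [indicator_of_mem hw, indicator_of_mem (hiff.2 hw)]
      congr 1
      rw [← smul_sub, norm_smul, norm_smul, Real.norm_eq_abs, abs_of_pos hs]
      field_simp
    · rw [indicator_of_notMem hw, indicator_of_notMem (fun h => hw (hiff.1 h))]
  simp only [h3] at h1
  rw [lintegral_indicator measurableSet_ball, lintegral_indicator measurableSet_ball] at h1
  rw [← h1, ← mul_assoc, ← ENNReal.ofReal_mul (by positivity), mul_inv_cancel₀ (by positivity),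
    ENNReal.ofReal_one, one_mul]

end Vale.Agent.P242.H373
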