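import Vale.Agent.P242.H373.Params
import Vale.Agent.P242.H373.AEDefs

set_option linter.all false

open MeasureTheory Set Metric Filter Topology TopologicalSpace
open scoped ENNReal

universe u v

namespace Vale.Agent.P242.H373

open H124

noncomputable def Ebar (n : ℕ) (υ : ℝ) : ℝ :=
  (1 + υ) * (1 + 2 * υ) ^ n * (1 + 32 * υ ^ 2) ^ n * (1 + 3 * υ) ^ n / (1 - υ)

noncomputable def bbar (υ : ℝ) : ℝ := 32 * υ + 16 * (16 * υ ^ 3 + υ) + 8 * (16 * υ ^ 3)

noncomputable def errb (n : ℕ) (υ : ℝ) : ℝ :=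
  3 * υ + 3 * (Ebar n υ - 1) + Ebar n υ * bbar υ / 2

theorem exists_param (n : ℕ) {t : ℝ} (ht : 0 < t) :
    ∃ υ : ℝ, 0 < υ ∧ υ ≤ 1 / 16 ∧ errb n υ ≤ t := by
  have h1 : ContinuousAt (errb n) 0 := by
    have h2 : ContinuousAt (Ebar n) 0 := by
      unfold Ebar
      apply ContinuousAt.div
      · fun_prop
      · fun_prop
      · norm_num
    have h3 : ContinuousAt bbar 0 := by
      unfold bbar
      fun_prop
    unfold errb
    exact ((continuousAt_const.mul continuousAt_id).add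
      (continuousAt_const.mul (h2.sub continuousAt_const))).add ((h2.mul h3).div_const 2)
  have h0 : errb n 0 = 0 := by
    simp [errb, Ebar, bbar]
  have h4 : Tendsto (errb n) (𝓝[>] 0) (𝓝 0) := by
    have := h1.tendsto
    rw [h0] at this
    exact this.mono_left nhdsWithin_le_nhds
  have h5 : ∀ᶠ υ in 𝓝[>] (0 : ℝ), errb n υ < t := h4.eventually (Iio_mem_nhds ht)
  have h6 : ∀ᶠ υ in 𝓝[>] (0 : ℝ), υ < 1 / 16 := nhdsWithin_le_nhds (Iio_mem_nhds (by norm_num))
  have h7 : ∀ᶠ υ in 𝓝[>] (0 : ℝ), 0 < υ := self_mem_nhdsWithin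
  obtain ⟨υ, hυ⟩ := (h5.and (h6.and h7)).exists
  exact ⟨υ, hυ.2.2, hυ.2.1.le, hυ.1.le⟩

/-- the measurable approximation at the point `x` and scale `s` -/
theorem exists_approx {X : Type u} [MetricSpace X] [SeparableSpace X] [MeasurableSpace X]
    [BorelSpace X] {n : ℕ} {δ υ s : ℝ} {x : X} (hυ : 0 < υ) (hυ16 : υ ≤ 1 / 16) (hδ : δ ≤ υ ^ 4)
    (hs : 0 < s) (hGH : GHClose n δ x (5 * (1 / υ * s))) :
    ∃ f : X → Eu n, Measurable f ∧
      (∀ y ∈ ball x (4 * (1 / υ * s)), ∀ z ∈ ball x (4 * (1 / υ * s)),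
        |dist (f y) (f z) - dist y z| ≤ 16 * υ ^ 3 * s) ∧
      ∀ w ∈ ball (f x) ((1 / υ + 3) * s), ∃ z ∈ ball x (4 * (1 / υ * s)),
        dist (f z) w ≤ 16 * υ ^ 3 * s := by
  have hne : Nonempty X := ⟨x⟩
  obtain ⟨f, hf1, hf2⟩ := hGH
  obtain ⟨π, hπ1, hπ2⟩ := measurable_approx (X := X) (θ := υ ^ 3 * s) (by positivity)
  set ls : ℝ := 1 / υ * s with hls
  have hls16 : 16 * s ≤ ls := by
    rw [hls, div_mul_eq_mul_div, one_mul, le_div_iff₀ hυ]
    nlinarith only [hυ16, hs]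
  have hυ3 : υ ^ 3 * s ≤ s / 16 := by
    have : υ ^ 3 ≤ 1 / 16 := by
      calc υ ^ 3 ≤ (1 / 16) ^ 3 := pow_le_pow_left₀ hυ.le hυ16 3
        _ ≤ 1 / 16 := by norm_num
    nlinarith only [this, hs]
  have hυ3p : 0 < υ ^ 3 * s := by positivity
  have hδr : δ * (5 * ls) ≤ 5 * (υ ^ 3 * s) := by
    have h1 : 0 ≤ 5 * ls := by linarith only [hls16, hs]
    refine (mul_le_mul_of_nonneg_right hδ h1).trans (le_of_eq ?_)
    rw [hls]
    field_simp
  have hmem : ∀ y ∈ ball x (4 * ls), π y ∈ ball x (5 * ls) := by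
    intro y hy
    rw [mem_ball] at hy ⊢
    have h1 := dist_triangle (π y) y x
    rw [dist_comm (π y) y] at h1
    have h2 := hπ1 y
    linarith only [h1, h2, hy, hυ3, hls16, hs]
  have hmem2 : ∀ y ∈ ball x (4 * ls), y ∈ ball x (5 * ls) := fun y hy =>
    ball_subset_ball (by linarith only [hls16, hs]) hy
  have hx4 : x ∈ ball x (4 * ls) := mem_ball_self (by linarith only [hls16, hs])
  refine ⟨f ∘ π, hπ2 f, ?_, ?_⟩
  · intro y hy z hz
    have d1 := abs_le.1 (hf1 _ (hmem y hy) _ (hmem z hz))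
    have d2 := hπ1 y
    have d3 := hπ1 z
    have d4 := dist_triangle4 (π y) y z (π z)
    have d5 := dist_triangle4 y (π y) (π z) z
    rw [dist_comm (π y) y] at d4
    rw [dist_comm (π z) z] at d5
    simp only [Function.comp_apply]
    rw [abs_le]
    constructor
    · linarith only [d1.1, d2, d3, d5, hδr, hυ3p]
    · linarith only [d1.2, d2, d3, d4, hδr, hυ3p]
  · intro w hw
    simp only [Function.comp_apply] at hw ⊢
    rw [mem_ball] at hw
    have hl3 : (1 / υ + 3) * s = ls + 3 * s := by rw [hls]; ring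
    rw [hl3] at hw
    have d0 := (abs_le.1 (hf1 _ (hmem x hx4) x (hmem2 x hx4))).2
    have d1 := hπ1 x
    rw [dist_comm] at d1
    have d2 : dist w (f x) < ls + 3 * s + (δ * (5 * ls) + υ ^ 3 * s) := by
      have := dist_triangle w (f (π x)) (f x)
      linarith only [this, hw, d0, d1]
    have d3 : w ∈ ball (f x) (5 * ls) := by
      rw [mem_ball]
      linarith only [d2, hδr, hυ3, hls16, hs]
    obtain ⟨y, hy, hyw⟩ := hf2 w d3
    have d4 := (abs_le.1 (hf1 y hy x (hmem2 x hx4))).1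
    have d5 := dist_triangle (f y) w (f x)
    have hy4 : y ∈ ball x (4 * ls) := by
      rw [mem_ball]
      linarith only [d4, d5, d2, hyw, hδr, hυ3, hls16, hs]
    refine ⟨y, hy4, ?_⟩
    have d6 := (abs_le.1 (hf1 _ (hmem y hy4) y hy)).2
    have d7 := hπ1 y
    rw [dist_comm] at d7
    have d8 := dist_triangle (f (π y)) (f y) w
    linarith only [d6, d7, d8, hyw, hδr, hυ3p]

/-- the main estimate: the average of `(d(x, ·) - d(x', ·))² / d(x, x')²` is almost constant -/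
theorem ratio_close {n : ℕ} (hn : 2 ≤ n) {ε : ℝ} (hε : 0 < ε) :
    ∃ δ a : ℝ, 0 < δ ∧ δ ≤ 1 / 4 ∧ 0 < a ∧ ∀ {X : Type u} [MetricSpace X] [CompleteSpace X]
      [SeparableSpace X] [MeasurableSpace X] [BorelSpace X] (m : Measure X) (K R V : ℝ),
      (∀ (x : X) (r : ℝ), m (ball x r) < ∞) → (∀ (x : X) (r : ℝ), 0 < r → 0 < m (ball x r)) →
      (IsCD K n m ∨ IsMCP K n m) → 0 < R → -δ ≤ K * R ^ 2 → 0 < V → ∀ p : X,
      AlmostConstantRatio m n δ V p R →
      (∀ x ∈ ball p R, ∀ r : ℝ, 0 < r → r ≤ R → GHClose n δ x r) →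
      ∀ x ∈ ball p (δ * R), ∀ x' ∈ ball p (δ * R), x ≠ x' →
        |∫ y in ball p (R / 2), ((dist x y - dist x' y) / dist x x') ^ 2 ∂m -
          a * (V * (R / 2) ^ n)| ≤ ε * (a * (V * (R / 2) ^ n)) := by
  have hn1 : (1 : ℝ) < n := by
    have : (2 : ℝ) ≤ n := by exact_mod_cast hn
    linarith
  obtain ⟨υ, hυ0, hυ16, herr⟩ := exists_param n (t := ε * ((1 / 4) ^ n / 16)) (by positivity)
  have hQ0 : 0 < 1 - υ := by linarith only [hυ16]
  obtain ⟨Λ, hΛ, hcontr⟩ := contr_small.{u} hn1 hQ0 (by linarith only [hυ0] : 1 - υ < 1)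
  set e : Eu n := EuclideanSpace.single (⟨0, by omega⟩ : Fin n) (1 : ℝ) with he_def
  have he : ‖e‖ = 1 := by rw [he_def]; simp
  have hlam0 : 0 < 1 / υ := by positivity
  have hlam16 : 16 ≤ 1 / υ := by
    rw [le_div_iff₀ hυ0]
    linarith only [hυ16]
  set a : ℝ := avg e (1 / υ + 3) with ha_def
  have ha := avg_lower he (ρ := 1 / υ + 3) (by linarith only [hlam16])
  rw [← ha_def] at ha
  have ha0 : 0 < a := lt_of_lt_of_le (by positivity) ha
  set δ : ℝ := min (υ ^ 4) Λ with hδ_def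
  have hδ0 : 0 < δ := by rw [hδ_def]; positivity
  have hδυ4 : δ ≤ υ ^ 4 := min_le_left _ _
  have hδΛ : δ ≤ Λ := min_le_right _ _
  have hυ3 : υ ^ 3 ≤ 1 / 4096 := by
    calc υ ^ 3 ≤ (1 / 16) ^ 3 := pow_le_pow_left₀ hυ0.le hυ16 3
      _ = 1 / 4096 := by norm_num
  have hυ4 : υ ^ 4 ≤ υ * (1 / 4096) := by
    have : υ ^ 4 = υ * υ ^ 3 := by ring
    rw [this]
    exact mul_le_mul_of_nonneg_left hυ3 hυ0.le
  have hδυ : δ ≤ υ := by linarith only [hδυ4, hυ4, hυ0]
  have hδ1 : δ ≤ 1 / 4096 := by linarith only [hδυ4, hυ4, hυ0, hυ16]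
  refine ⟨δ, a, hδ0, by linarith only [hδ1], ha0, ?_⟩
  intro X _ _ _ _ _ m K R V hfin hpos hK hR hKR hV p hratio hGH x hx x' hx' hne
  have hsc : SecondCountableTopology X := UniformSpace.secondCountable_of_separable X
  have h := hcontr m K R hfin hpos hK hR (by linarith only [hKR, hδΛ])
  set s : ℝ := dist x x' with hs_def
  have hs : 0 < s := dist_pos.2 hne
  have hδR : 0 < δ * R := by positivity
  rw [mem_ball] at hx hx'
  have hs2 : s < 2 * (δ * R) := by
    have := dist_triangle_right x x' p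
    linarith only [this, hx, hx']
  have hls : 1 / υ * s < 2 * (υ ^ 3 * R) := by
    rw [div_mul_eq_mul_div, one_mul, div_lt_iff₀ hυ0]
    have h1 : δ * R ≤ υ ^ 4 * R := mul_le_mul_of_nonneg_right hδυ4 hR.le
    calc s < 2 * (δ * R) := hs2
      _ ≤ 2 * (υ ^ 4 * R) := by linarith only [h1]
      _ = 2 * (υ ^ 3 * R) * υ := by ring
  have hυ3R : υ ^ 3 * R ≤ 1 / 4096 * R := mul_le_mul_of_nonneg_right hυ3 hR.le
  have hlsR : 1 / υ * s < R / 2048 := by linarith only [hls, hυ3R]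
  have hls0 : 0 < 1 / υ * s := by positivity
  have hδR' : δ * R ≤ R / 4096 := by
    have := mul_le_mul_of_nonneg_right hδ1 hR.le
    linarith only [this]
  have hxR : x ∈ ball p R := by
    rw [mem_ball]
    linarith only [hx, hδR', hR]
  obtain ⟨f, hfm, hf1, hf2⟩ := exists_approx (n := n) (δ := δ) hυ0 hυ16 hδυ4 hs
    (hGH x hxR (5 * (1 / υ * s)) (by positivity) (by linarith only [hlsR, hR]))
  set A : Set X := ball p (R / 2) with hA
  set R' : ℝ := R / 2 + δ * R with hR'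
  have hR'0 : 0 < R' := by positivity
  have hAx : ∀ z : X, dist z p < δ * R → A ⊆ ball z R' := by
    intro z hz y hy
    rw [hA, mem_ball] at hy
    rw [mem_ball]
    have := dist_triangle_right y z p
    linarith only [this, hy, hz, hR']
  have hυ3' : 0 < υ ^ 3 := by positivity
  have hsR : s < R / 4096 := by
    have h1 : 16 * s ≤ 1 / υ * s := mul_le_mul_of_nonneg_right hlam16 hs.le
    linarith only [h1, hlsR, hs, hR]
  have hηθ : υ + 2 * (16 * υ ^ 3) ≤ 1 := by linarith only [hυ16, hυ3]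
  have hball : ∀ z ∈ ball x (4 * (1 / υ * s)), m.real (ball z ((υ + 2 * (16 * υ ^ 3)) * s)) ≤
      (1 + δ) * V * ((υ + 2 * (16 * υ ^ 3)) * s) ^ n := by
    intro z hz
    rw [mem_ball] at hz
    have hzR : z ∈ ball p R := by
      rw [mem_ball]
      have := dist_triangle z x p
      linarith only [this, hz, hlsR, hx, hδR', hR]
    have h1 : (υ + 2 * (16 * υ ^ 3)) * s ≤ R := by
      have := mul_le_mul_of_nonneg_right hηθ hs.le
      linarith only [this, hsR, hR]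
    have h2 := (hratio z hzR _ (by positivity) h1).2
    have h3 := ENNReal.toReal_le_of_le_ofReal (by positivity) h2
    rw [Measure.real]
    refine h3.trans (le_of_eq ?_)
    ring
  have hcommon : ∀ (Ψ : ℝ → ℝ) (α β : ℝ), Continuous Ψ → Antitone Ψ → (∀ u, 0 ≤ Ψ u) →
      (∀ u v, |Ψ u - Ψ v| ≤ 4 * |u - v|) →
      (∀ u, |u| ≤ 1 → Ψ u + Ψ (-u) = α + β * u ^ 2) →
      α * m.real A + β * ∫ y in A, ((dist x y - dist x' y) / s) ^ 2 ∂m ≤
      (1 + δ) * V * R' ^ n / (1 - υ) * ((υ + 2 * (16 * υ ^ 3)) / υ) ^ n *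
        ((1 / υ + 3) / (1 / υ)) ^ n * (α + β * a + (32 * υ + 16 * (16 * υ ^ 3 + υ) +
          8 * (16 * υ ^ 3))) := by
    intro Ψ α β g1 g2 g3 g4 g5
    exact pair_real h hfin hQ0 hs rfl (measurableSet_ball) (hAx x hx) (hAx x' hx') hR'0
      (by linarith only [hR', hδR', hR]) hlam0 (by linarith only [hlsR, hR', hδR, hR])
      (κ₀ := υ) hυ0 (by linarith only [hυ16]) (η := υ) (θ := 16 * υ ^ 3) hυ0 (by positivity)
      (by linarith only [hηθ, hυ3']) (r₂ := 4 * (1 / υ * s)) (by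
        have h1 : 16 * s ≤ 1 / υ * s := mul_le_mul_of_nonneg_right hlam16 hs.le
        linarith only [h1, hs]) hfm hf1 hf2 (D := (1 + δ) * V) (by positivity) hball
      g1 g2 g3 g4 he g5
  have hI := hcommon Psi1 2 2 Psi1_cont Psi1_anti Psi1_nonneg Psi1_lip Psi1_sum
  have hII := hcommon Psi2 6 (-2) Psi2_cont Psi2_anti Psi2_nonneg Psi2_lip Psi2_sum
  -- simplify the factor
  set M : ℝ := V * (R / 2) ^ n with hM
  have hM0 : 0 < M := by positivity
  have hfac : (1 + δ) * V * R' ^ n / (1 - υ) * ((υ + 2 * (16 * υ ^ 3)) / υ) ^ n *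
      ((1 / υ + 3) / (1 / υ)) ^ n ≤ M * Ebar n υ := by
    have e1 : (υ + 2 * (16 * υ ^ 3)) / υ = 1 + 32 * υ ^ 2 := by field_simp; ring
    have e2 : (1 / υ + 3) / (1 / υ) = 1 + 3 * υ := by field_simp
    have e3 : R' = R / 2 * (1 + 2 * δ) := by rw [hR']; ring
    rw [e1, e2, e3, mul_pow]
    have e4 : (1 + 2 * δ) ^ n ≤ (1 + 2 * υ) ^ n :=
      pow_le_pow_left₀ (by positivity) (by linarith only [hδυ]) n
    have e5 : (1 + δ) * (1 + 2 * δ) ^ n ≤ (1 + υ) * (1 + 2 * υ) ^ n :=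
      mul_le_mul (by linarith only [hδυ]) e4 (by positivity) (by positivity)
    have e6 : 0 ≤ V * (R / 2) ^ n * ((1 + 32 * υ ^ 2) ^ n * (1 + 3 * υ) ^ n / (1 - υ)) := by
      positivity
    calc (1 + δ) * V * ((R / 2) ^ n * (1 + 2 * δ) ^ n) / (1 - υ) * (1 + 32 * υ ^ 2) ^ n *
          (1 + 3 * υ) ^ n
        = V * (R / 2) ^ n * ((1 + 32 * υ ^ 2) ^ n * (1 + 3 * υ) ^ n / (1 - υ)) *
          ((1 + δ) * (1 + 2 * δ) ^ n) := by ring
      _ ≤ V * (R / 2) ^ n * ((1 + 32 * υ ^ 2) ^ n * (1 + 3 * υ) ^ n / (1 - υ)) *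
          ((1 + υ) * (1 + 2 * υ) ^ n) := mul_le_mul_of_nonneg_left e5 e6
      _ = M * Ebar n υ := by rw [hM, Ebar]; ring
  have hvolA := hratio p (mem_ball_self hR) (R / 2) (by positivity) (by linarith only [hR])
  have hmA : (1 - υ) * M ≤ m.real A := by
    have h1 : (1 - δ) * M ≤ m.real A := by
      rw [Measure.real]
      exact (ENNReal.ofReal_le_iff_le_toReal (hfin _ _).ne).1 hvolA.1
    refine le_trans ?_ h1
    exact mul_le_mul_of_nonneg_right (by linarith only [hδυ]) hM0.le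
  -- `a ≤ 1`
  have ha1 : a ≤ 1 := by
    have hγ1 : ∀ w : Eu n, |‖w‖ - ‖w - e‖| ≤ 1 := fun w => by
      refine (abs_norm_sub_norm_le _ _).trans ?_
      rw [sub_sub_cancel, he]
    have hbd : ∀ w ∈ ball (0 : Eu n) (1 / υ + 3), ‖(‖w‖ - ‖w - e‖) ^ 2‖ ≤ 1 := fun w _ => by
      rw [Real.norm_eq_abs, abs_pow]
      exact pow_le_one₀ (abs_nonneg _) (hγ1 w)
    have h1 := norm_setIntegral_le_of_norm_le_const (μ := (volume : Measure (Eu n)))
      measure_ball_lt_top hbd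
    rw [one_mul] at h1
    rw [ha_def, avg]
    apply div_le_one_of_le₀ ((le_abs_self _).trans h1) measureReal_nonneg
  set G : ℝ := ∫ y in A, ((dist x y - dist x' y) / s) ^ 2 ∂m with hG
  set b : ℝ := bbar υ with hb
  have hb0 : 0 ≤ b := by rw [hb, bbar]; positivity
  have hI' : 2 * m.real A + 2 * G ≤ M * Ebar n υ * (2 + 2 * a + b) := by
    refine hI.trans ?_
    exact mul_le_mul_of_nonneg_right hfac (by positivity)
  have hII' : 6 * m.real A + (-2) * G ≤ M * Ebar n υ * (6 + (-2) * a + b) := by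
    refine hII.trans ?_
    exact mul_le_mul_of_nonneg_right hfac (by
      show 0 ≤ 6 + (-2) * a + b
      linarith only [ha1, hb0])
  set E : ℝ := Ebar n υ with hE
  have hE1 : 1 ≤ E := by
    rw [hE, Ebar, le_div_iff₀ hQ0, one_mul]
    have f1 : 1 ≤ (1 + 2 * υ) ^ n := one_le_pow₀ (by linarith only [hυ0])
    have f2 : 1 ≤ (1 + 32 * υ ^ 2) ^ n := one_le_pow₀ (by nlinarith only [hυ0])
    have f3 : 1 ≤ (1 + 3 * υ) ^ n := one_le_pow₀ (by linarith only [hυ0])
    have f4 : 1 ≤ (1 + υ) * (1 + 2 * υ) ^ n * (1 + 32 * υ ^ 2) ^ n * (1 + 3 * υ) ^ n :=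
      one_le_mul_of_one_le_of_one_le (one_le_mul_of_one_le_of_one_le
        (one_le_mul_of_one_le_of_one_le (by linarith only [hυ0]) f1) f2) f3
    linarith only [f4, hυ0]
  have herr' : 3 * υ + 3 * (E - 1) + E * b / 2 ≤ ε * a := by
    refine (herr).trans ?_
    exact mul_le_mul_of_nonneg_left ha hε.le
  have hEM : 0 ≤ M * (E - 1) := mul_nonneg hM0.le (by linarith only [hE1])
  have hup : G ≤ M * (a + (3 * υ + 3 * (E - 1) + E * b / 2)) := by
    have h1 : M * (E - 1) * a ≤ M * (E - 1) * 1 := mul_le_mul_of_nonneg_left ha1 hEM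
    have h2 : 0 < M * υ := by positivity
    nlinarith only [hI', hmA, h1, h2, hEM]
  have hdown : M * (a - (3 * υ + 3 * (E - 1) + E * b / 2)) ≤ G := by
    have h1 : 0 ≤ M * (E - 1) * a := mul_nonneg hEM ha0.le
    nlinarith only [hII', hmA, h1, hEM]
  have hMe : M * (3 * υ + 3 * (E - 1) + E * b / 2) ≤ M * (ε * a) :=
    mul_le_mul_of_nonneg_left herr' hM0.le
  rw [abs_le]
  constructor
  · linarith only [hdown, hMe]
  · linarith only [hup, hMe]

end Vale.Agent.P242.H373
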