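import Vale.Agent.P242.H124.Defs

open MeasureTheory Set Metric Filter Topology
open scoped ENNReal

universe u

namespace Vale.Agent.P242.H373

/-- Complete separable metric space whose `n`-dimensional Hausdorff measure is finite on balls, has
full support and satisfies the curvature-dimension condition `CD(K, n)` or the measure contraction
property `MCP(K, n)`. -/
def Noncollapsed (X : Type u) [MetricSpace X] [MeasurableSpace X] [BorelSpace X] (K : ℝ) (n : ℕ) :
    Prop :=
  CompleteSpace X ∧ TopologicalSpace.SeparableSpace X ∧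
    (∀ (x : X) (r : ℝ), (μH[(n : ℝ)] : Measure X) (ball x r) < ∞) ∧
    (∀ (x : X) (r : ℝ), 0 < r → 0 < (μH[(n : ℝ)] : Measure X) (ball x r)) ∧
    (IsCD K n (μH[(n : ℝ)] : Measure X) ∨ H124.IsMCP K n (μH[(n : ℝ)] : Measure X))

/-- `(Y, q)` is the pointed Gromov-Hausdorff limit of the rescaled spaces `(X, r_j⁻¹ d, p)`: for
all `R, ε > 0` and all large `j` there is a map of `B(q, R)` to `X` which takes `q` to `p`, has
distortion at most `ε` for the distance `r_j⁻¹ d` and an `ε`-dense image in `B(p, r_j (R - ε))`. -/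
def IsScaledLimit {X Y : Type u} [MetricSpace X] [MetricSpace Y] (p : X) (r : ℕ → ℝ) (q : Y) :
    Prop :=
  ∀ R ε : ℝ, 0 < R → 0 < ε → ∀ᶠ j in atTop, ∃ f : Y → X, f q = p ∧
    (∀ a ∈ ball q R, ∀ b ∈ ball q R, |dist (f a) (f b) / r j - dist a b| ≤ ε) ∧
    ∀ x ∈ ball p (r j * (R - ε)), ∃ a ∈ ball q R, dist x (f a) ≤ r j * ε

end Vale.Agent.P242.H373
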