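import Vale.Agent.P242.H373.Almost

set_option linter.all false

open MeasureTheory Set Metric Filter Topology TopologicalSpace
open scoped ENNReal

universe u v

namespace Vale.Agent.P242.H373

open H124

theorem exists_beta (n : ℕ) {t : ℝ} (ht : 0 < t) :
    ∃ β : ℝ, 0 < β ∧ β ≤ 1 / 2 ∧ β ≤ t ∧ 1 - t ≤ (1 - β) * ((1 - β) / (1 + β) ^ n) := by
  have h1 : ContinuousAt (fun β : ℝ => (1 - β) * ((1 - β) / (1 + β) ^ n)) 0 := by
    apply ContinuousAt.mul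
    · fun_prop
    · apply ContinuousAt.div
      · fun_prop
      · fun_prop
      · norm_num
  have h4 : Tendsto (fun β : ℝ => (1 - β) * ((1 - β) / (1 + β) ^ n)) (𝓝[>] 0) (𝓝 1) := by
    have := h1.tendsto
    simp only [sub_zero, add_zero, one_pow, div_one, mul_one] at this
    exact this.mono_left nhdsWithin_le_nhds
  have h5 := h4.eventually (Ioi_mem_nhds (show 1 - t < 1 by linarith only [ht]))
  have h6 : ∀ᶠ υ in 𝓝[>] (0 : ℝ), υ < 1 / 2 := nhdsWithin_le_nhds (Iio_mem_nhds (by norm_num))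
  have h8 : ∀ᶠ υ in 𝓝[>] (0 : ℝ), υ < t := nhdsWithin_le_nhds (Iio_mem_nhds ht)
  have h7 : ∀ᶠ υ in 𝓝[>] (0 : ℝ), 0 < υ := self_mem_nhdsWithin
  obtain ⟨υ, hυ⟩ := (h5.and ((h6.and h8).and h7)).exists
  exact ⟨υ, hυ.2.2, hυ.2.1.1.le, hυ.2.1.2.le, le_of_lt hυ.1⟩

/-- in noncollapsed spaces almost constant volume ratio holds near a dense set of points -/
theorem dense_ratio {n : ℕ} (hn : 2 ≤ n) {X : Type u} [MetricSpace X] [CompleteSpace X]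
    [SeparableSpace X] [MeasurableSpace X] [BorelSpace X] {K : ℝ}
    (hfin : ∀ (x : X) (r : ℝ), (μH[(n : ℝ)] : Measure X) (ball x r) < ∞)
    (hpos : ∀ (x : X) (r : ℝ), 0 < r → 0 < (μH[(n : ℝ)] : Measure X) (ball x r))
    (hK : IsCD K n (μH[(n : ℝ)] : Measure X) ∨ IsMCP K n (μH[(n : ℝ)] : Measure X))
    {W : Set X} (hW : IsOpen W) (hWne : W.Nonempty) {δ r₀ : ℝ} (hδ : 0 < δ) (hr₀ : 0 < r₀) :
    ∃ (p : X) (R V : ℝ), p ∈ W ∧ 0 < R ∧ R ≤ r₀ ∧ 0 < V ∧ ball p R ⊆ W ∧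
      AlmostConstantRatio (μH[(n : ℝ)] : Measure X) n δ V p R := by
  have hsc : SecondCountableTopology X := UniformSpace.secondCountable_of_separable X
  have hn1 : (1 : ℝ) < n := by
    have : (2 : ℝ) ≤ n := by exact_mod_cast hn
    linarith
  obtain ⟨β, hβ0, hβ2, hβδ, hβ⟩ := exists_beta n hδ
  have hQ0 : 0 < 1 - β := by linarith only [hβ2]
  obtain ⟨R₀, hR₀, hcontr⟩ := contr_uniform.{u} K hn1 hQ0 (by linarith only [hβ0] : 1 - β < 1)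
  set m : Measure X := (μH[(n : ℝ)] : Measure X) with hm
  have h := hcontr m hfin hpos hK
  have hmpos : ∀ (x : X) (r : ℝ), 0 < r → 0 < m.real (ball x r) := fun x r hr =>
    ENNReal.toReal_pos (hpos x r hr).ne' (hfin x r).ne
  set ρ₀ : ℝ := R₀ / 2 with hρ₀
  have hρ₀0 : 0 < ρ₀ := by positivity
  -- the ratios
  set S : ℝ → Set ℝ := fun ρ => {v | ∃ x ∈ W, ∃ r, 0 < r ∧ r ≤ ρ ∧ v = m.real (ball x r) / r ^ n}
    with hS
  set Cb : ℝ := 16 ^ n / (1 - β) ^ 2 with hCb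
  have hSbdd : ∀ ρ, ρ ≤ ρ₀ → ∀ v ∈ S ρ, v ≤ Cb := by
    rintro ρ hρ v ⟨x, -, r, hr, hrρ, rfl⟩
    rw [div_le_iff₀ (by positivity)]
    exact hausdorff_upper h hfin hpos hQ0 (by linarith only [hβ0]) x hr
      (by linarith only [hrρ, hρ, hρ₀])
  obtain ⟨x₀, hx₀⟩ := hWne
  have hSne : ∀ ρ, 0 < ρ → (S ρ).Nonempty := fun ρ hρ =>
    ⟨_, x₀, hx₀, ρ, hρ, le_rfl, rfl⟩
  set Θ : ℝ → ℝ := fun ρ => sSup (S ρ) with hΘ
  set T : Set ℝ := Θ '' (Ioc 0 ρ₀) with hT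
  -- lower bound
  set c₀ : ℝ := (1 - β) * (m.real (ball x₀ ρ₀) / ρ₀ ^ n) with hc₀
  have hc₀0 : 0 < c₀ := by
    have := hmpos x₀ ρ₀ hρ₀0
    positivity
  have hΘlow : ∀ ρ, 0 < ρ → ρ ≤ ρ₀ → c₀ ≤ Θ ρ := by
    intro ρ hρ hρρ
    have h1 := h.mono hfin (by linarith only [hβ0]) (x := x₀) (s := ρ) (R := ρ₀) hρ hρρ
      (by linarith only [hρ₀, hR₀])
    have h2 : c₀ ≤ m.real (ball x₀ ρ) / ρ ^ n := by
      rw [le_div_iff₀ (by positivity)]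
      refine le_trans (le_of_eq ?_) h1
      rw [Real.rpow_natCast, div_pow, hc₀]
      field_simp
    exact h2.trans (le_csSup ⟨Cb, hSbdd ρ hρρ⟩ ⟨x₀, hx₀, ρ, hρ, le_rfl, rfl⟩)
  have hTne : T.Nonempty := ⟨_, ρ₀, ⟨hρ₀0, le_rfl⟩, rfl⟩
  have hTbdd : BddBelow T := ⟨c₀, by
    rintro v ⟨ρ, ⟨h1, h2⟩, rfl⟩
    exact hΘlow ρ h1 h2⟩
  set Θ₀ : ℝ := sInf T with hΘ₀
  have hΘ₀0 : 0 < Θ₀ := lt_of_lt_of_le hc₀0 (le_csInf hTne (by
    rintro v ⟨ρ, ⟨h1, h2⟩, rfl⟩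
    exact hΘlow ρ h1 h2))
  obtain ⟨v, ⟨ρ₁, ⟨hρ₁0, hρ₁⟩, rfl⟩, hv⟩ := exists_lt_of_csInf_lt hTne
    (show sInf T < (1 + β) * Θ₀ by rw [← hΘ₀]; nlinarith only [hΘ₀0, hβ0])
  have hΘρ₁ : Θ₀ ≤ Θ ρ₁ := csInf_le hTbdd ⟨ρ₁, ⟨hρ₁0, hρ₁⟩, rfl⟩
  obtain ⟨w, ⟨x₁, hx₁, r₁, hr₁0, hr₁, rfl⟩, hw⟩ := exists_lt_of_lt_csSup (hSne ρ₁ hρ₁0)
    (show (1 - β) * Θ₀ < Θ ρ₁ by nlinarith only [hΘ₀0, hβ0, hΘρ₁])
  -- the ball
  obtain ⟨t, ht0, ht⟩ := Metric.isOpen_iff.1 hW x₁ hx₁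
  set R : ℝ := min (β * r₁) (min t r₀) with hR
  have hR0 : 0 < R := by rw [hR]; positivity
  have hRβ : R ≤ β * r₁ := min_le_left _ _
  have hRt : R ≤ t := (min_le_right _ _).trans (min_le_left _ _)
  have hRr₀ : R ≤ r₀ := (min_le_right _ _).trans (min_le_right _ _)
  have hRr₁ : R ≤ r₁ := by nlinarith only [hRβ, hβ2, hr₁0]
  refine ⟨x₁, R, Θ₀, hx₁, hR0, hRr₀, hΘ₀0, (ball_subset_ball hRt).trans ht, ?_⟩
  intro x hx r hr hrR
  have hxW : x ∈ W := ht (ball_subset_ball hRt hx)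
  have hrn : 0 < r ^ n := by positivity
  constructor
  · rw [ENNReal.ofReal_le_iff_le_toReal (hfin x r).ne]
    show (1 - δ) * (Θ₀ * r ^ n) ≤ m.real (ball x r)
    have h1 := h.mono hfin (by linarith only [hβ0]) (x := x) (s := r) (R := (1 + β) * r₁) hr
      (by nlinarith only [hrR, hRr₁, hβ0, hr₁0]) (by nlinarith only [hr₁, hρ₁, hρ₀, hβ2, hr₁0])
    have h2 : m.real (ball x₁ r₁) ≤ m.real (ball x ((1 + β) * r₁)) := by
      apply measureReal_mono _ (hfin _ _).ne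
      intro y hy
      rw [mem_ball] at hx hy ⊢
      have := dist_triangle_right y x x₁
      rw [dist_comm x x₁] at this
      have h3 := dist_triangle y x₁ x
      rw [dist_comm x₁ x] at h3
      linarith only [h3, hx, hy, hRβ]
    rw [lt_div_iff₀ (by positivity)] at hw
    rw [Real.rpow_natCast] at h1
    have h3 : (1 - β) * (r / ((1 + β) * r₁)) ^ n * ((1 - β) * Θ₀ * r₁ ^ n) ≤ m.real (ball x r) := by
      refine le_trans ?_ h1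
      exact mul_le_mul_of_nonneg_left (hw.le.trans h2) (by positivity)
    refine le_trans ?_ h3
    have h4 : (1 - β) * (r / ((1 + β) * r₁)) ^ n * ((1 - β) * Θ₀ * r₁ ^ n) =
        ((1 - β) * ((1 - β) / (1 + β) ^ n)) * (Θ₀ * r ^ n) := by
      rw [div_pow, mul_pow]
      field_simp
    rw [h4]
    exact mul_le_mul_of_nonneg_right hβ (by positivity)
  · rw [ENNReal.le_ofReal_iff_toReal_le (hfin x r).ne (by positivity)]
    show m.real (ball x r) ≤ (1 + δ) * (Θ₀ * r ^ n)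
    have h1 : m.real (ball x r) / r ^ n ≤ Θ ρ₁ :=
      le_csSup ⟨Cb, hSbdd ρ₁ hρ₁⟩ ⟨x, hxW, r, hr, by linarith only [hrR, hRr₁, hr₁], rfl⟩
    rw [div_le_iff₀ hrn] at h1
    refine h1.trans ?_
    have h2 : Θ ρ₁ ≤ (1 + δ) * Θ₀ := by
      refine hv.le.trans ?_
      exact mul_le_mul_of_nonneg_right (by linarith only [hβδ]) hΘ₀0.le
    calc Θ ρ₁ * r ^ n ≤ (1 + δ) * Θ₀ * r ^ n := mul_le_mul_of_nonneg_right h2 hrn.le
      _ = _ := by ring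

/-- generic almost isometric embedding in the Colding-Naber regular open sets -/
theorem generic_of {n : ℕ} (hn : 2 ≤ n) {X : Type u} [MetricSpace X] [CompleteSpace X]
    [SeparableSpace X] [MeasurableSpace X] [BorelSpace X] {K ε δ : ℝ} (hδ0 : 0 < δ)
    (hδ1 : δ ≤ 1 / 4)
    (h : ∀ R V : ℝ, 0 < R → -δ ≤ K * R ^ 2 → 0 < V → ∀ p : X,
      AlmostConstantRatio (μH[(n : ℝ)] : Measure X) n δ V p R →
      (∀ x ∈ ball p R, ∀ r : ℝ, 0 < r → r ≤ R → GHClose n δ x r) →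
      EmbedsInHilbert (ball p (δ * R)) (1 + ε))
    (hfin : ∀ (x : X) (r : ℝ), (μH[(n : ℝ)] : Measure X) (ball x r) < ∞)
    (hpos : ∀ (x : X) (r : ℝ), 0 < r → 0 < (μH[(n : ℝ)] : Measure X) (ball x r))
    (hK : IsCD K n (μH[(n : ℝ)] : Measure X) ∨ IsMCP K n (μH[(n : ℝ)] : Measure X))
    {W : Set X} {r₀ : ℝ} (hr₀ : 0 < r₀)
    (hGH : ∀ x ∈ W, ∀ r : ℝ, 0 < r → r ≤ r₀ → GHClose n δ x r)
    {W' : Set X} (hW' : IsOpen W') (hW'W : W' ⊆ W) (hW'ne : W'.Nonempty) :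
    ∃ U : Set X, IsOpen U ∧ U ⊆ W' ∧ U.Nonempty ∧ EmbedsInHilbert U (1 + ε) := by
  obtain ⟨p, R, V, hp, hR0, hRr, hV, hball, hratio⟩ := dense_ratio hn hfin hpos hK hW' hW'ne hδ0
    (r₀ := min r₀ (min 1 (δ / (|K| + 1)))) (by positivity)
  have hRr₀ : R ≤ r₀ := hRr.trans (min_le_left _ _)
  have hR1 : R ≤ 1 := hRr.trans ((min_le_right _ _).trans (min_le_left _ _))
  have hRK : R * (|K| + 1) ≤ δ := by
    have : R ≤ δ / (|K| + 1) := hRr.trans ((min_le_right _ _).trans (min_le_right _ _))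
    rwa [le_div_iff₀ (by positivity)] at this
  have hKR : -δ ≤ K * R ^ 2 := by
    have h4 : |K| * R ^ 2 ≤ δ := by
      calc |K| * R ^ 2 = |K| * R * R := by ring
        _ ≤ |K| * R * 1 := mul_le_mul_of_nonneg_left hR1 (by positivity)
        _ ≤ δ := by linarith only [hRK, hR0]
    have h5 : -|K| * R ^ 2 ≤ K * R ^ 2 :=
      mul_le_mul_of_nonneg_right (neg_abs_le K) (sq_nonneg R)
    linarith only [h4, h5]
  refine ⟨ball p (δ * R), isOpen_ball, ?_, ⟨p, mem_ball_self (by positivity)⟩, ?_⟩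
  · refine (ball_subset_ball ?_).trans hball
    nlinarith only [hδ1, hR0]
  · refine h R V hR0 hKR hV p hratio ?_
    intro x hx r hr hrR
    exact hGH x (hW'W (hball hx)) r hr (hrR.trans hRr₀)

end Vale.Agent.P242.H373
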