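import Vale.Agent.P242.H373.Master
import Vale.Agent.P242.H373.Defs

set_option linter.all false

open MeasureTheory Set Metric Filter Topology TopologicalSpace
open scoped ENNReal

universe u v

namespace Vale.Agent.P242.H373

open H124

/-- embeddings pass to scaled limits -/
theorem scaledLimit_embeds {X Y : Type u} [MetricSpace X] [MetricSpace Y] [SeparableSpace Y]
    {L : ℝ} (hL : 0 < L) {p : X} {q : Y} {r : ℕ → ℝ} (hr : ∀ j, 0 < r j)
    (hlim : IsScaledLimit p r q)
    (hX : ∀ R : ℝ, 0 < R → ∃ᶠ j in atTop, ∃ S : Set X, ball p (R * r j) ⊆ S ∧ EmbedsInHilbert S L) :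
    EmbedsInHilbert (univ : Set Y) L := by
  classical
  apply embeds_of_approx hL
  intro A ε hε
  -- a ball containing `A`
  obtain ⟨R, hR0, hR⟩ : ∃ R : ℝ, 0 < R ∧ ∀ a ∈ A, dist a q < R := by
    refine ⟨1 + ∑ a ∈ A, dist a q, by positivity, fun a ha => ?_⟩
    have := Finset.single_le_sum (f := fun a => dist a q) (fun i _ => dist_nonneg) ha
    linarith only [this]
  set ε' := min (1 : ℝ) (ε / (L + L⁻¹)) with hε'
  have hLi : 0 < L⁻¹ := inv_pos.2 hL
  have hε'0 : 0 < ε' := by positivity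
  have hε'1 : ε' ≤ 1 := min_le_left _ _
  have hε'2 : (L + L⁻¹) * ε' ≤ ε := by
    have h1 : ε' ≤ ε / (L + L⁻¹) := min_le_right _ _
    rw [le_div_iff₀ (by positivity)] at h1
    linarith only [h1]
  obtain ⟨j, ⟨S, hS, hSe⟩, f, hfq, hf, -⟩ :=
    ((hX (R + 1) (by positivity)).and_eventually (hlim R ε' hR0 hε'0)).exists
  obtain ⟨G, hG⟩ := ofEmbeds hSe
  have hrj := hr j
  have hmem : ∀ a ∈ A, f a ∈ S := by
    intro a ha
    apply hS
    have h1 := (abs_le.1 (hf a (mem_ball.2 (hR a ha)) q (mem_ball_self hR0))).2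
    rw [hfq] at h1
    have h2 : dist (f a) p / r j < R + 1 := by
      have := hR a ha
      linarith only [h1, hε'1, this]
    rw [div_lt_iff₀ hrj] at h2
    exact mem_ball.2 h2
  refine ⟨fun y => (r j)⁻¹ • G (f y), fun a ha b hb => ?_⟩
  have h1 := hG (f a) (hmem a ha) (f b) (hmem b hb)
  have h2 := abs_le.1 (hf a (mem_ball.2 (hR a ha)) b (mem_ball.2 (hR b hb)))
  have h3 : dist ((r j)⁻¹ • G (f a)) ((r j)⁻¹ • G (f b)) = dist (G (f a)) (G (f b)) / r j := by
    rw [dist_smul₀, Real.norm_eq_abs, abs_of_pos (inv_pos.2 hrj), inv_mul_eq_div]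
  rw [h3]
  have h4 : L⁻¹ * (dist (f a) (f b) / r j) ≤ dist (G (f a)) (G (f b)) / r j := by
    rw [← mul_div_assoc]
    exact div_le_div_of_nonneg_right h1.1 hrj.le
  have h5 : dist (G (f a)) (G (f b)) / r j ≤ L * (dist (f a) (f b) / r j) := by
    rw [← mul_div_assoc]
    exact div_le_div_of_nonneg_right h1.2 hrj.le
  have h6 : L⁻¹ * (dist a b - ε') ≤ L⁻¹ * (dist (f a) (f b) / r j) :=
    mul_le_mul_of_nonneg_left (by linarith only [h2.1]) hLi.le
  have h7 : L * (dist (f a) (f b) / r j) ≤ L * (dist a b + ε') :=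
    mul_le_mul_of_nonneg_left (by linarith only [h2.2]) hL.le
  have h8 : 0 < L * ε' := by positivity
  have h9 : 0 < L⁻¹ * ε' := by positivity
  constructor
  · linarith only [h4, h6, hε'2, h8]
  · linarith only [h5, h7, hε'2, h9]

/-- spaces of nonnegative curvature and Euclidean volume growth; local embeddings with a
constant depending only on the dimension and the density -/
theorem universal_constant {n : ℕ} (hn : 2 ≤ n) {v : ℝ} (hv : 0 < v) :
    ∃ L : ℝ, 1 ≤ L ∧ ∀ (X : Type u) [MetricSpace X] [MeasurableSpace X] [BorelSpace X] (K : ℝ),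
      Noncollapsed X K n → ∀ p : X,
        ((∀ δ : ℝ, 0 < δ → ∃ r : ℝ, 0 < r ∧ r < δ ∧
            ENNReal.ofReal (v * r ^ n) ≤ (μH[(n : ℝ)] : Measure X) (ball p r)) →
          (∃ U : Set X, IsOpen U ∧ p ∈ U ∧ EmbedsInHilbert U L) ∧
          ∀ (Y : Type u) [MetricSpace Y] [SeparableSpace Y] (q : Y) (r : ℕ → ℝ),
            (∀ j, 0 < r j) → Tendsto r atTop (𝓝 0) → IsScaledLimit p r q →
              EmbedsInHilbert (univ : Set Y) L) ∧
        (0 ≤ K → (∀ R₀ : ℝ, ∃ R : ℝ, R₀ < R ∧
            ENNReal.ofReal (v * R ^ n) ≤ (μH[(n : ℝ)] : Measure X) (ball p R)) →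
          EmbedsInHilbert (univ : Set X) L ∧
          ∀ (Y : Type u) [MetricSpace Y] [SeparableSpace Y] (q : Y) (r : ℕ → ℝ),
            (∀ j, 0 < r j) → IsScaledLimit p r q → EmbedsInHilbert (univ : Set Y) L) := by
  obtain ⟨L, hL, h⟩ := noncollapsed_scale.{u} hn (Λ := 1) zero_le_one hv (D := 1) one_pos
  have hL0 : 0 < L := by linarith only [hL]
  refine ⟨L, hL, fun X _ _ _ K hX p => ?_⟩
  obtain ⟨hcomp, hsep, hfin, hpos, hK⟩ := hX
  constructor
  · intro hdens
    -- a small ball which embeds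
    have hball : ∃ r : ℝ, 0 < r ∧ EmbedsInHilbert (ball p r) L := by
      obtain ⟨r, hr0, hr1, hr2⟩ := hdens (1 / (|K| + 1)) (by positivity)
      refine ⟨r, hr0, ?_⟩
      have h1 : -1 ≤ K * r ^ 2 := by
        have h2 : r * (|K| + 1) < 1 := by rwa [lt_div_iff₀ (by positivity)] at hr1
        have h3 : r < 1 := by nlinarith only [h2, hr0, abs_nonneg K]
        have h4 : |K| * r ^ 2 ≤ 1 := by nlinarith only [h2, h3, hr0, abs_nonneg K]
        have h5 : -|K| * r ^ 2 ≤ K * r ^ 2 :=
          mul_le_mul_of_nonneg_right (neg_abs_le K) (sq_nonneg r)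
        linarith only [h4, h5]
      have := h K r hfin hpos hK hr0 h1 p hr2
      rwa [one_mul] at this
    obtain ⟨r₀, hr₀, hemb⟩ := hball
    refine ⟨⟨ball p r₀, isOpen_ball, mem_ball_self hr₀, hemb⟩, ?_⟩
    intro Y _ _ q r hr hr0 hlim
    apply scaledLimit_embeds hL0 hr hlim
    intro R hR
    have h1 : Tendsto (fun j => R * r j) atTop (𝓝 0) := by
      have := hr0.const_mul R
      rwa [mul_zero] at this
    have h2 : ∀ᶠ j in atTop, R * r j < r₀ := h1.eventually (Iio_mem_nhds hr₀)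
    exact (h2.mono fun j hj => ⟨ball p r₀, ball_subset_ball hj.le, hemb⟩).frequently
  · intro hK0 hgrow
    have hglob : EmbedsInHilbert (univ : Set X) L := by
      classical
      apply embeds_of_approx hL0
      intro A ε hε
      obtain ⟨R, hR1, hR2⟩ := hgrow (1 + ∑ a ∈ A, dist a p)
      have hsum : 0 ≤ ∑ a ∈ A, dist a p := Finset.sum_nonneg fun i _ => dist_nonneg
      have hR0 : 0 < R := by linarith only [hR1, hsum]
      have h1 := h K R hfin hpos hK hR0 (by
        have := mul_nonneg hK0 (sq_nonneg R)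
        linarith only [this]) p hR2
      rw [one_mul] at h1
      obtain ⟨G, hG⟩ := ofEmbeds h1
      refine ⟨G, fun a ha b hb => ?_⟩
      have hmem : ∀ a ∈ A, a ∈ ball p R := by
        intro a ha
        have := Finset.single_le_sum (f := fun a => dist a p) (fun i _ => dist_nonneg) ha
        rw [mem_ball]
        linarith only [this, hR1]
      have h2 := hG a (hmem a ha) b (hmem b hb)
      constructor
      · linarith only [h2.1, hε]
      · linarith only [h2.2, hε]
    refine ⟨hglob, ?_⟩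
    intro Y _ _ q r hr hlim
    apply scaledLimit_embeds hL0 hr hlim
    intro R hR
    exact (Eventually.of_forall fun j => ⟨univ, subset_univ _, hglob⟩).frequently

end Vale.Agent.P242.H373
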