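import Vale.Agent.P242.H373.Scale
import Vale.Agent.P242.H373.Limit

set_option linter.all false

open MeasureTheory Set Metric Filter Topology TopologicalSpace
open scoped ENNReal

universe u v

namespace Vale.Agent.P242.H373

open H124

/-- scale invariant uniform embedding of bounded upper regular sets -/
theorem master_scale {N Λ : ℝ} (hN : 1 < N) (hΛ : 0 ≤ Λ) {b v D r₁ : ℝ} (hb : 0 < b) (hv : 0 < v)
    (hD : 0 < D) (hr₁ : 0 < r₁) :
    ∃ L : ℝ, 1 ≤ L ∧ ∀ {X : Type u} [MetricSpace X] [CompleteSpace X] [SeparableSpace X]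
      [MeasurableSpace X] [BorelSpace X] (m : Measure X) (K ℓ : ℝ),
      (∀ (x : X) (r : ℝ), m (ball x r) < ∞) → (∀ (x : X) (r : ℝ), 0 < r → 0 < m (ball x r)) →
      (IsCD K N m ∨ IsMCP K N m) → 0 < ℓ → -Λ ≤ K * ℓ ^ 2 →
      ∀ (p : X) (S : Set X), S ⊆ ball p (D * ℓ) →
      ENNReal.ofReal (v * ℓ ^ N) ≤ m (ball p ℓ) → UpperRegularOn m N S b (r₁ * ℓ) →
      EmbedsInHilbert S L := by
  classical
  have hN0 : 0 < N := by linarith only [hN]
  obtain ⟨Q, hQ0, hQ1, hQN⟩ := exists_Q (N := N)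
  obtain ⟨c₀, hc₀, hcontr⟩ := contr_scale.{u} hN hQ0 hQ1 hΛ
  set ρ : ℝ := min (c₀ / 2) (min r₁ (1 / 2)) with hρ
  have hρ0 : 0 < ρ := by rw [hρ]; positivity
  have hρ2 : 2 * ρ ≤ c₀ := by
    have : ρ ≤ c₀ / 2 := min_le_left _ _
    linarith only [this]
  have hρr₁ : ρ ≤ r₁ := (min_le_right _ _).trans (min_le_left _ _)
  have hρ1 : ρ ≤ 1 / 2 := (min_le_right _ _).trans (min_le_right _ _)
  set M : ℕ := ⌈(64 : ℝ) ^ N / Q ^ 2⌉₊ with hM
  have hM1 : (64 : ℝ) ^ N / Q ^ 2 ≤ M := Nat.le_ceil _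
  have hM0 : 0 < M := Nat.ceil_pos.2 (by positivity)
  obtain ⟨k, hk⟩ := pow_unbounded_of_one_lt ((D + 2) / ρ) (by norm_num : (1 : ℝ) < 3 / 2)
  have hkD0 : D + 2 ≤ (3 / 2) ^ k * ρ := by
    rw [div_lt_iff₀ hρ0] at hk
    exact hk.le
  set M' : ℕ := M ^ (2 ^ k) with hM'
  have hM'0 : (0 : ℝ) < M' := by
    have : 0 < M' := pow_pos hM0 _
    exact_mod_cast this
  set c : ℝ := (Q * (1 / 2) ^ N) ^ (2 ^ k) with hc
  have hc0 : 0 < c := by rw [hc]; positivity
  set a : ℝ := Q * (c * (v / M')) / ρ ^ N with ha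
  have ha0 : 0 < a := by rw [ha]; positivity
  obtain ⟨C, hC1, hC⟩ := embed_core.{u} hN0 hQ0 hQ1 hQN ha0 hb
  refine ⟨2 * C + M', by linarith only [hC1, hM'0], ?_⟩
  intro X _ _ _ _ _ m K ℓ hfin hpos hK hℓ hKℓ p S hS hvp hreg
  have hsc : SecondCountableTopology X := UniformSpace.secondCountable_of_separable X
  have h := hcontr m K ℓ hfin hpos hK hℓ hKℓ
  have hmid : Mids X := by
    rcases hK with hK | hK
    · exact mids_of_CD hfin hpos hK
    · exact mids_of_MCP hfin hpos hK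
  -- the basic radius
  set r : ℝ := ρ * ℓ with hr
  have hr0 : 0 < r := by rw [hr]; positivity
  have hr2 : 2 * r ≤ c₀ * ℓ := by
    rw [hr, ← mul_assoc]
    exact mul_le_mul_of_nonneg_right hρ2 hℓ.le
  have hrR : r ≤ c₀ * ℓ := by linarith only [hr2, hr0]
  have hrr₁ : r ≤ r₁ * ℓ := mul_le_mul_of_nonneg_right hρr₁ hℓ.le
  have hr1 : r ≤ ℓ / 2 := by
    have := mul_le_mul_of_nonneg_right hρ1 hℓ.le
    linarith only [this]
  have hkD : D * ℓ + 2 * ℓ ≤ (3 / 2) ^ k * r := by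
    have := mul_le_mul_of_nonneg_right hkD0 hℓ.le
    rw [hr]
    linarith only [this]
  have hM1' : (8 * r / (r / 8)) ^ N / Q ^ 2 ≤ M := by
    have : 8 * r / (r / 8) = 64 := by
      field_simp
      norm_num
    rw [this]
    exact hM1
  have hDℓ : 0 < D * ℓ := by positivity
  obtain ⟨T, hT1, hT2⟩ := cover hQ0 hQ1.le h hfin hpos hmid hr0 hr2
    (s := r / 8) (by positivity) (le_refl _) hM1' k p
  -- a ball of definite volume near `p`
  have hvℓ : 0 < v * ℓ ^ N := by positivity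
  obtain ⟨y, hyT, hyp, hyv⟩ : ∃ y ∈ T, dist p y < ℓ + r / 8 ∧
      v * ℓ ^ N / M' ≤ m.real (ball y (r / 8)) := by
    by_contra hcon
    push Not at hcon
    set T₁ := T.filter (fun y => dist p y < ℓ + r / 8) with hT₁
    have hsub : ball p ℓ ⊆ ⋃ y ∈ T₁, ball y (r / 8) := by
      intro z hz
      have h1 : z ∈ ball p ((3 / 2) ^ k * r) :=
        ball_subset_ball (by linarith only [hkD, hDℓ, hℓ]) hz
      have h2 := hT2 h1
      simp only [mem_iUnion, exists_prop] at h2 ⊢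
      obtain ⟨y, hy, hzy⟩ := h2
      refine ⟨y, Finset.mem_filter.2 ⟨hy, ?_⟩, hzy⟩
      rw [mem_ball] at hz hzy
      have h3 := dist_triangle p z y
      rw [dist_comm p z] at h3
      linarith only [h3, hz, hzy]
    have h1 : v * ℓ ^ N ≤ m.real (ball p ℓ) := by
      rw [Measure.real]
      exact (ENNReal.ofReal_le_iff_le_toReal (hfin _ _).ne).1 hvp
    have h2 : m.real (ball p ℓ) ≤ ∑ y ∈ T₁, m.real (ball y (r / 8)) := by
      refine (measureReal_mono hsub ?_).trans (measureReal_biUnion_finset_le _ _)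
      refine ((measure_biUnion_finset_le _ _).trans_lt ?_).ne
      exact ENNReal.sum_lt_top.2 fun y _ => hfin y _
    have h3 : ∑ y ∈ T₁, m.real (ball y (r / 8)) < v * ℓ ^ N := by
      rcases T₁.eq_empty_or_nonempty with hemp | hne
      · rw [hemp, Finset.sum_empty]
        exact hvℓ
      · calc ∑ y ∈ T₁, m.real (ball y (r / 8)) < ∑ _y ∈ T₁, v * ℓ ^ N / M' := by
              apply Finset.sum_lt_sum_of_nonempty hne
              intro y hy
              rw [Finset.mem_filter] at hy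
              exact hcon y hy.1 hy.2
          _ = T₁.card * (v * ℓ ^ N / M') := by rw [Finset.sum_const, nsmul_eq_mul]
          _ ≤ M' * (v * ℓ ^ N / M') := by
              apply mul_le_mul_of_nonneg_right _ (by positivity)
              have : T₁.card ≤ M' := (Finset.card_filter_le _ _).trans hT1
              exact_mod_cast this
          _ = v * ℓ ^ N := by (clear * - hM'0; field_simp)
    linarith only [h1, h2, h3]
  have hlow0 : ∀ x ∈ S, c * (v * ℓ ^ N / M') ≤ m.real (ball x r) := by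
    intro x hx
    have h1 := hS hx
    rw [mem_ball] at h1
    have h2 := dist_triangle y p x
    rw [dist_comm y p, dist_comm p x] at h2
    have h3 := chain hQ0 hQ1.le h hfin hmid hr0 hr2 k y x
      (by linarith only [h1, h2, hyp, hkD, hr1, hℓ])
    refine le_trans ?_ h3
    apply mul_le_mul_of_nonneg_left _ hc0.le
    exact hyv.trans (measureReal_mono (ball_subset_ball (by linarith only [hr0])) (hfin _ _).ne)
  have hlow : ∀ x ∈ S, ∀ s : ℝ, 0 < s → s ≤ r → a ≤ m.real (ball x s) / s ^ N := by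
    intro x hx s hs hsr
    have h1 := h.mono hfin hQ1.le (x := x) (s := s) (R := r) hs hsr hrR
    rw [le_div_iff₀ (by positivity)]
    refine le_trans ?_ h1
    rw [Real.div_rpow hs.le hr0.le]
    have e1 : r ^ N = ρ ^ N * ℓ ^ N := by rw [hr, Real.mul_rpow hρ0.le hℓ.le]
    have hℓN : 0 < ℓ ^ N := by positivity
    have hρN : 0 < ρ ^ N := by positivity
    calc a * s ^ N = Q * (s ^ N / r ^ N) * (c * (v * ℓ ^ N / M')) := by
          rw [ha, e1]
          (clear * - hℓN hρN hM'0; field_simp)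
      _ ≤ _ := mul_le_mul_of_nonneg_left (hlow0 x hx) (by positivity)
  have hub : ∀ x ∈ S, ∀ s : ℝ, 0 < s → s ≤ r → m.real (ball x s) ≤ b * s ^ N := by
    intro x hx s hs hsr
    exact ENNReal.toReal_le_of_le_ofReal (by positivity) (hreg x hx s hs (hsr.trans hrr₁))
  obtain ⟨F, hF⟩ := hC m (c₀ * ℓ) r S h hfin hr0 hrR hub hlow
  have hfar := embed_far hC1 hr0 F hF T (by
    intro x hx
    have h1 : x ∈ ball p ((3 / 2) ^ k * r) :=
      ball_subset_ball (by linarith only [hkD, hℓ]) (hS hx)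
    have h2 := hT2 h1
    simp only [mem_iUnion, exists_prop] at h2 ⊢
    obtain ⟨y, hy, hxy⟩ := h2
    exact ⟨y, hy, ball_subset_ball (by linarith only [hr0]) hxy⟩)
  refine hfar.mono ?_ ?_
  · have : (0 : ℝ) ≤ T.card := Nat.cast_nonneg _
    linarith only [this, hC1]
  · have : (T.card : ℝ) ≤ M' := by exact_mod_cast hT1
    linarith only [this]

/-- noncollapsed spaces, scale invariant form -/
theorem noncollapsed_scale {n : ℕ} (hn : 2 ≤ n) {Λ : ℝ} (hΛ : 0 ≤ Λ) {v D : ℝ} (hv : 0 < v)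
    (hD : 0 < D) :
    ∃ L : ℝ, 1 ≤ L ∧ ∀ {X : Type u} [MetricSpace X] [CompleteSpace X] [SeparableSpace X]
      [MeasurableSpace X] [BorelSpace X] (K ℓ : ℝ),
      (∀ (x : X) (r : ℝ), (μH[(n : ℝ)] : Measure X) (ball x r) < ∞) →
      (∀ (x : X) (r : ℝ), 0 < r → 0 < (μH[(n : ℝ)] : Measure X) (ball x r)) →
      (IsCD K n (μH[(n : ℝ)] : Measure X) ∨ IsMCP K n (μH[(n : ℝ)] : Measure X)) →
      0 < ℓ → -Λ ≤ K * ℓ ^ 2 →
      ∀ p : X, ENNReal.ofReal (v * ℓ ^ n) ≤ (μH[(n : ℝ)] : Measure X) (ball p ℓ) →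
        EmbedsInHilbert (ball p (D * ℓ)) L := by
  have hn1 : (1 : ℝ) < n := by
    have : (2 : ℝ) ≤ n := by exact_mod_cast hn
    linarith
  obtain ⟨Q, hQ0, hQ1, hQN⟩ := exists_Q (N := (n : ℝ))
  obtain ⟨c₀, hc₀, hcontr⟩ := contr_scale.{u} hn1 hQ0 hQ1 hΛ
  obtain ⟨L, hL1, hL⟩ := master_scale.{u} hn1 hΛ (b := 16 ^ n / Q ^ 2) (v := v) (D := D)
    (r₁ := c₀ / 2) (by positivity) hv hD (by positivity)
  refine ⟨L, hL1, ?_⟩
  intro X _ _ _ _ _ K ℓ hfin hpos hK hℓ hKℓ p hvp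
  have hsc : SecondCountableTopology X := UniformSpace.secondCountable_of_separable X
  have h := hcontr (μH[(n : ℝ)] : Measure X) K ℓ hfin hpos hK hℓ hKℓ
  refine hL _ K ℓ hfin hpos hK hℓ hKℓ p (ball p (D * ℓ)) (Subset.refl _)
    (by rw [Real.rpow_natCast]; exact hvp) ?_
  intro x _ r hr hrR
  have h1 := hausdorff_upper h hfin hpos hQ0 hQ1.le x hr (by linarith only [hrR])
  rw [Measure.real] at h1
  rw [Real.rpow_natCast]
  exact (ENNReal.le_ofReal_iff_toReal_le (hfin _ _).ne (by positivity)).2 h1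

end Vale.Agent.P242.H373
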