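import Vale.Agent.P242.H373.Christ

set_option linter.all false

open MeasureTheory Set Metric Filter Topology TopologicalSpace
open scoped ENNReal

universe u v

namespace Vale.Agent.P242.H373

/-- the Euclidean side of the comparison -/
theorem eucl_side {n : ℕ} {H : ℝ → ℝ} (hHc : Continuous H) (hLip : ∀ u v, |H u - H v| ≤ 8 * |u - v|)
    {c c' e : Eu n} (he : ‖e‖ = 1) {s θ b ρ : ℝ} (hs : 0 < s) (hθ1 : θ < 1)
    (hcc : |dist c' c - s| ≤ θ * s) :
    ∫⁻ w in ball c (ρ * s), ENNReal.ofReal (H ((dist w c - dist w c') / s) + b) ≤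
      ENNReal.ofReal (s ^ n) *
        ∫⁻ w in ball (0 : Eu n) ρ, ENNReal.ofReal (H (‖w‖ - ‖w - e‖) + (b + 8 * θ)) := by
  set u : Eu n := c' - c with hu
  have hun : ‖u‖ = dist c' c := by rw [hu, dist_eq_norm]
  have hupos : 0 < ‖u‖ := by
    have := (abs_le.1 hcc).1
    rw [hun]
    nlinarith only [this, hs, hθ1]
  set e' : Eu n := ‖u‖⁻¹ • u with he'
  have he'n : ‖e'‖ = 1 := by
    rw [he', norm_smul, norm_inv, norm_norm, inv_mul_cancel₀ hupos.ne']
  have hue : u - s • e' = (‖u‖ - s) • e' := by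
    rw [sub_smul]
    congr 1
    rw [he', smul_smul, mul_inv_cancel₀ hupos.ne', one_smul]
  have hun2 : ‖u - s • e'‖ ≤ θ * s := by
    rw [hue, norm_smul, he'n, mul_one, Real.norm_eq_abs, hun]
    exact hcc
  -- translation
  have h1 := (measurePreserving_add_right (volume : Measure (Eu n)) c).setLIntegral_comp_preimage_emb
    (measurableEmbedding_addRight c)
    (fun w => ENNReal.ofReal (H ((dist w c - dist w c') / s) + b)) (ball c (ρ * s))
  have h2 : (fun w : Eu n => w + c) ⁻¹' ball c (ρ * s) = ball 0 (ρ * s) := by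
    ext w
    simp [mem_ball, dist_eq_norm]
  rw [h2] at h1
  rw [← h1]
  have hF : Measurable fun v : ℝ => ENNReal.ofReal (H v + (b + 8 * θ)) :=
    (hHc.measurable.add_const _).ennreal_ofReal
  have h3 : ∀ w : Eu n, ENNReal.ofReal (H ((dist (w + c) c - dist (w + c) c') / s) + b) ≤
      ENNReal.ofReal (H ((‖w‖ - ‖w - s • e'‖) / s) + (b + 8 * θ)) := by
    intro w
    apply ENNReal.ofReal_le_ofReal
    have e1 : dist (w + c) c = ‖w‖ := by rw [dist_eq_norm, add_sub_cancel_right]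
    have e2 : dist (w + c) c' = ‖w - u‖ := by
      rw [dist_eq_norm, hu]
      congr 1
      abel
    rw [e1, e2]
    have e3 := (abs_le.1 (hLip ((‖w‖ - ‖w - u‖) / s) ((‖w‖ - ‖w - s • e'‖) / s))).2
    have e4 : |(‖w‖ - ‖w - u‖) / s - (‖w‖ - ‖w - s • e'‖) / s| ≤ θ := by
      rw [← sub_div, abs_div, abs_of_pos hs, div_le_iff₀ hs]
      have e5 : ‖w‖ - ‖w - u‖ - (‖w‖ - ‖w - s • e'‖) = ‖w - s • e'‖ - ‖w - u‖ := by ring
      rw [e5]
      refine (abs_norm_sub_norm_le _ _).trans ?_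
      have e6 : w - s • e' - (w - u) = u - s • e' := by abel
      rw [e6]
      exact hun2
    linarith only [e3, e4]
  refine (lintegral_mono fun w => h3 w).trans (le_of_eq ?_)
  rw [scal e' hF hs, rot (he'n.trans he.symm) hF]

/-- the two-sided comparison of the scales `s = d(x, x')` and `R'` -/
theorem pair_bound {X : Type u} [MetricSpace X] [SecondCountableTopology X] [MeasurableSpace X]
    [BorelSpace X] {m : Measure X} {n : ℕ} {Q R₀ : ℝ} (h : Contr m (n : ℝ) Q R₀)
    (hfin : ∀ (x : X) (r : ℝ), m (ball x r) < ∞) (hQ0 : 0 < Q)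
    {x x' : X} {s R' lam κ₀ η θ r₂ : ℝ} (hs : 0 < s) (hd : dist x x' = s) {A : Set X}
    (hA : MeasurableSet A) (hAx : A ⊆ ball x R') (hAx' : A ⊆ ball x' R') (hR'0 : 0 < R')
    (hR' : R' ≤ R₀) (hlam : 0 < lam) (ht1 : lam * s < R') (hκ₀ : 0 < κ₀) (hκ₀3 : κ₀ ≤ 1 / 3)
    (hη : 0 < η) (hθ : 0 ≤ θ) (hηθ : η + θ ≤ 1) (hr₂ : (lam + 3) * s ≤ r₂)
    {f : X → Eu n} (hf : Measurable f)
    (hf1 : ∀ y ∈ ball x r₂, ∀ z ∈ ball x r₂, |dist (f y) (f z) - dist y z| ≤ θ * s)
    (hf2 : ∀ w ∈ ball (f x) ((lam + 3) * s), ∃ z ∈ ball x r₂, dist (f z) w ≤ θ * s)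
    {C : ℝ≥0∞} (hC : ∀ z ∈ ball x r₂, m (ball z ((η + 2 * θ) * s)) ≤ C)
    {Ψ : ℝ → ℝ} (hΨc : Continuous Ψ) (hΨa : Antitone Ψ) (hΨ0 : ∀ u, 0 ≤ Ψ u)
    (hΨL : ∀ u v, |Ψ u - Ψ v| ≤ 4 * |u - v|) {e : Eu n} (he : ‖e‖ = 1) :
    ENNReal.ofReal (Q * (lam * s / R') ^ (n : ℝ)) * (volume (ball (0 : Eu n) (η * s)) *
      ∫⁻ y in A, ENNReal.ofReal (Ψ ((dist x y - dist x' y) / s) +
        Ψ (-((dist x y - dist x' y) / s))) ∂m) ≤
      C * (ENNReal.ofReal (s ^ n) * ∫⁻ w in ball (0 : Eu n) (lam + 3),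
        ENNReal.ofReal (Ψ (‖w‖ - ‖w - e‖) + Ψ (-(‖w‖ - ‖w - e‖)) +
          (32 * κ₀ + 16 * (θ + η) + 8 * θ))) := by
  have hloc : IsLocallyFiniteMeasure m := ⟨fun y => ⟨ball y 1, ball_mem_nhds y one_pos, hfin y 1⟩⟩
  have hsig : SigmaFinite m := inferInstance
  have hκ : 0 < κ₀ * s := by positivity
  have hlam3 : 0 < lam + 3 := by linarith only [hlam]
  have hκR : κ₀ * s ≤ R₀ ∨ R₀ < κ₀ * s := le_or_gt _ _
  -- `κ` is at most `R₀`
  set κ : ℝ := min (κ₀ * s) R₀ with hκdef
  have hR₀0 : 0 < R₀ := lt_of_lt_of_le hR'0 hR'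
  have hκ0 : 0 < κ := lt_min hκ hR₀0
  have hκle : κ ≤ κ₀ * s := min_le_left _ _
  have hκR₀ : κ ≤ R₀ := min_le_right _ _
  have hκs : 3 * κ ≤ s := by nlinarith only [hκle, hκ₀3, hs]
  set t : ℝ := lam * s / R' with ht
  have ht0 : 0 < t := by rw [ht]; positivity
  have ht1' : t < 1 := by rw [ht, div_lt_one hR'0]; exact ht1
  have htR : t * R' = lam * s := by rw [ht]; field_simp
  set g : X → ℝ := fun y => dist x y - dist x' y with hg
  have hgc : Continuous g := (continuous_const.dist continuous_id).sub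
    (continuous_const.dist continuous_id)
  have hgabs : ∀ y, |g y| ≤ s := fun y => by
    rw [← hd]
    exact abs_dist_sub_le x x' y
  set B : Set X := ball x ((lam + 2) * s) with hB
  have hB1 : ball x (t * R' + 3 * κ) ⊆ B := by
    apply ball_subset_ball
    rw [htR]
    nlinarith only [hκs, hs]
  have hB2 : ball x' (t * R' + 3 * κ) ⊆ B := by
    intro y hy
    rw [mem_ball, htR] at hy
    rw [hB, mem_ball]
    have := dist_triangle y x' x
    rw [dist_comm x' x, hd] at this
    nlinarith only [hy, this, hκs, hs]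
  set c : ℝ≥0∞ := ENNReal.ofReal (Q * t ^ (n : ℝ)) with hc
  have hφc : Continuous fun u => Ψ (u / s) := hΨc.comp (continuous_id.div_const s)
  have hφa : Antitone fun u => Ψ (u / s) := fun u v huv =>
    hΨa (div_le_div_of_nonneg_right huv hs.le)
  -- the two contractions
  have hA1 : c * ∫⁻ y in A, ENNReal.ofReal (Ψ (g y / s)) ∂m ≤
      ∫⁻ y in B, ENNReal.ofReal (Ψ ((g y - 4 * κ) / s)) ∂m := by
    have h1 := cake hA (measurableSet_ball (x := x) (ε := t * R' + 3 * κ)) hgc.measurable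
      (C := s + 1) (fun y _ => by
        have := (abs_le.1 (hgabs y)).2
        linarith only [this])
      (fun u => level h hfin hQ0.le hR'0 hR' hκ0 hκR₀ ht0 ht1' hA hAx u) hφc hφa
      (fun u => hΨ0 _)
    exact h1.trans (lintegral_mono_set hB1)
  have hA2 : c * ∫⁻ y in A, ENNReal.ofReal (Ψ (-g y / s)) ∂m ≤
      ∫⁻ y in B, ENNReal.ofReal (Ψ ((-g y - 4 * κ) / s)) ∂m := by
    have h0 : ∀ y, -g y = dist x' y - dist x y := fun y => by rw [hg]; ring
    simp only [h0]
    have h1 := cake hA (measurableSet_ball (x := x') (ε := t * R' + 3 * κ))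
      (g := fun y => dist x' y - dist x y)
      ((continuous_const.dist continuous_id).sub (continuous_const.dist continuous_id)).measurable
      (C := s + 1) (fun y _ => by
        have := (abs_le.1 (hgabs y)).1
        have h0' := h0 y
        linarith only [this, h0'])
      (fun u => level h hfin hQ0.le hR'0 hR' hκ0 hκR₀ ht0 ht1' hA hAx' u) hφc hφa
      (fun u => hΨ0 _)
    exact h1.trans (lintegral_mono_set hB2)
  set H : ℝ → ℝ := fun u => Ψ u + Ψ (-u) with hH
  have hHc : Continuous H := hΨc.add (hΨc.comp continuous_neg)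
  have hHL : ∀ u v, |H u - H v| ≤ 8 * |u - v| := by
    intro u v
    have h1 := hΨL u v
    have h2 := hΨL (-u) (-v)
    have h3 : |-u - -v| = |u - v| := by
      rw [← abs_neg]
      congr 1
      ring
    rw [h3] at h2
    have h4 : H u - H v = (Ψ u - Ψ v) + (Ψ (-u) - Ψ (-v)) := by rw [hH]; ring
    rw [h4]
    refine (abs_add_le _ _).trans ?_
    linarith only [h1, h2]
  have hgs : ∀ y, -(g y / s) = -g y / s := fun y => by ring
  have hstepA : c * ∫⁻ y in A, ENNReal.ofReal (H (g y / s)) ∂m ≤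
      ∫⁻ y in B, ENNReal.ofReal (H (g y / s) + 32 * κ₀) ∂m := by
    have e1 : ∀ y, ENNReal.ofReal (H (g y / s)) =
        ENNReal.ofReal (Ψ (g y / s)) + ENNReal.ofReal (Ψ (-g y / s)) := fun y => by
      rw [← ENNReal.ofReal_add (hΨ0 _) (hΨ0 _), hH, ← hgs]
    simp only [e1]
    have hm1 : Measurable fun y => ENNReal.ofReal (Ψ (g y / s)) :=
      (hφc.measurable.comp hgc.measurable).ennreal_ofReal
    rw [lintegral_add_left hm1, mul_add]
    refine (add_le_add hA1 hA2).trans ?_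
    have hm2 : Measurable fun y => ENNReal.ofReal (Ψ ((g y - 4 * κ) / s)) :=
      (hφc.measurable.comp (hgc.measurable.sub_const _)).ennreal_ofReal
    rw [← lintegral_add_left hm2]
    apply lintegral_mono
    intro y
    show ENNReal.ofReal (Ψ ((g y - 4 * κ) / s)) + ENNReal.ofReal (Ψ ((-g y - 4 * κ) / s)) ≤
      ENNReal.ofReal (H (g y / s) + 32 * κ₀)
    rw [← ENNReal.ofReal_add (hΨ0 _) (hΨ0 _)]
    apply ENNReal.ofReal_le_ofReal
    have hκ4 : 4 * κ / s ≤ 4 * κ₀ := by
      rw [div_le_iff₀ hs]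
      linarith only [hκle]
    have hκ40 : 0 ≤ 4 * κ / s := by positivity
    have e2 := (abs_le.1 (hΨL ((g y - 4 * κ) / s) (g y / s))).2
    have e3 := (abs_le.1 (hΨL ((-g y - 4 * κ) / s) (-g y / s))).2
    have e4 : |(g y - 4 * κ) / s - g y / s| = 4 * κ / s := by
      have : (g y - 4 * κ) / s - g y / s = -(4 * κ / s) := by ring
      rw [this, abs_neg, abs_of_nonneg hκ40]
    have e5 : |(-g y - 4 * κ) / s - -g y / s| = 4 * κ / s := by
      have : (-g y - 4 * κ) / s - -g y / s = -(4 * κ / s) := by ring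
      rw [this, abs_neg, abs_of_nonneg hκ40]
    rw [e4] at e2
    rw [e5] at e3
    have e6 : H (g y / s) = Ψ (g y / s) + Ψ (-g y / s) := by rw [hH, ← hgs]
    rw [e6]
    linarith only [e2, e3, hκ4]
  -- Christensen
  have hxr : x ∈ ball x r₂ := mem_ball_self (by nlinarith only [hr₂, hlam3, hs])
  have hx'r : x' ∈ ball x r₂ := by
    rw [mem_ball, dist_comm, hd]
    nlinarith only [hr₂, hlam, hs]
  have hBr : B ⊆ ball x r₂ := ball_subset_ball (by nlinarith only [hr₂, hs])
  have hstepB := christ (m := m) hf (B := B) measurableSet_ball (c := f x) (τ := η * s)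
    (ρ := (lam + 3) * s) (C := C)
    (h := fun y => ENNReal.ofReal (H (g y / s) + 32 * κ₀))
    (((hHc.comp (hgc.div_const s)).measurable.add_const _).ennreal_ofReal)
    (hE := fun w => ENNReal.ofReal (H ((dist w (f x) - dist w (f x')) / s) +
      (32 * κ₀ + 16 * (θ + η))))
    (((hHc.comp ((((continuous_id.dist continuous_const).sub
      (continuous_id.dist continuous_const))).div_const s)).measurable.add_const _).ennreal_ofReal)
    (by
      intro z hz w hw
      have hzr := hBr hz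
      rw [hB, mem_ball] at hz
      have d1 := abs_le.1 (hf1 z hzr x hxr)
      have d2 := abs_le.1 (hf1 z hzr x' hx'r)
      constructor
      · rw [mem_ball]
        have := dist_triangle w (f z) (f x)
        nlinarith only [this, hw, hz, d1.2, hηθ, hs]
      · apply ENNReal.ofReal_le_ofReal
        have d3 := (abs_le.1 (hHL (g z / s) ((dist w (f x) - dist w (f x')) / s))).2
        have d4 : |g z / s - (dist w (f x) - dist w (f x')) / s| ≤ 2 * (θ + η) := by
          rw [← sub_div, abs_div, abs_of_pos hs, div_le_iff₀ hs]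
          have d5 := abs_le.1 (abs_dist_sub_le w (f z) (f x))
          have d6 := abs_le.1 (abs_dist_sub_le w (f z) (f x'))
          have d7 : g z = dist z x - dist z x' := by rw [hg, dist_comm z x, dist_comm z x']
          rw [d7, abs_le]
          constructor
          · linarith only [d1.1, d1.2, d2.1, d2.2, d5.1, d5.2, d6.1, d6.2, hw]
          · linarith only [d1.1, d1.2, d2.1, d2.2, d5.1, d5.2, d6.1, d6.2, hw]
        linarith only [d3, d4])
    (by
      intro w hw
      obtain ⟨z₀, hz₀, hz₀w⟩ := hf2 w hw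
      refine (measure_mono ?_).trans (hC z₀ hz₀)
      rintro z ⟨hz, hzw⟩
      have hzr := hBr hz
      simp only [mem_setOf_eq] at hzw
      rw [mem_ball]
      have d1 := abs_le.1 (hf1 z hzr z₀ hz₀)
      have d2 := dist_triangle (f z) w (f z₀)
      rw [dist_comm (f z) w, dist_comm w (f z₀)] at d2
      linarith only [d1.1, d2, hzw, hz₀w])
  have hstepC := eucl_side (n := n) hHc hHL (c := f x) (c' := f x') he (s := s) (θ := θ)
    (b := 32 * κ₀ + 16 * (θ + η)) (ρ := lam + 3) hs (by linarith only [hη, hηθ]) (by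
      have := hf1 x' hx'r x hxr
      rwa [dist_comm x' x, hd] at this)
  calc ENNReal.ofReal (Q * t ^ (n : ℝ)) * (volume (ball (0 : Eu n) (η * s)) *
        ∫⁻ y in A, ENNReal.ofReal (Ψ ((dist x y - dist x' y) / s) +
          Ψ (-((dist x y - dist x' y) / s))) ∂m)
      = volume (ball (0 : Eu n) (η * s)) * (c * ∫⁻ y in A, ENNReal.ofReal (H (g y / s)) ∂m) := by
        rw [← mul_assoc, mul_comm c, mul_assoc]
    _ ≤ volume (ball (0 : Eu n) (η * s)) *
          ∫⁻ y in B, ENNReal.ofReal (H (g y / s) + 32 * κ₀) ∂m := mul_le_mul_right hstepA _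
    _ ≤ C * ∫⁻ w in ball (f x) ((lam + 3) * s), ENNReal.ofReal
          (H ((dist w (f x) - dist w (f x')) / s) + (32 * κ₀ + 16 * (θ + η))) := hstepB
    _ ≤ _ := mul_le_mul_right hstepC _

end Vale.Agent.P242.H373
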