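import Vale.Agent.P242.H373.PairBound

set_option linter.all false

open MeasureTheory Set Metric Filter Topology TopologicalSpace
open scoped ENNReal

universe u v

namespace Vale.Agent.P242.H373

/-- the average of `(|w| - |w - e|)²` over the Euclidean ball of radius `ρ` -/
noncomputable def avg {n : ℕ} (e : Eu n) (ρ : ℝ) : ℝ :=
  (∫ w in ball (0 : Eu n) ρ, (‖w‖ - ‖w - e‖) ^ 2) / volume.real (ball (0 : Eu n) ρ)

/-- integrals of quadratic polynomials of a function bounded by `1` -/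
theorem lint_quad {X : Type u} [MeasurableSpace X] {m : Measure X} {A : Set X}
    (hA : MeasurableSet A) (hAf : m A ≠ ∞) {g : X → ℝ} (hg : Measurable g) (hg1 : ∀ y, |g y| ≤ 1)
    {α β b : ℝ} {H : ℝ → ℝ} (hH : ∀ u, |u| ≤ 1 → H u = α + β * u ^ 2)
    (h0 : ∀ u, |u| ≤ 1 → 0 ≤ H u) (hb : 0 ≤ b) :
    ∫⁻ y in A, ENNReal.ofReal (H (g y) + b) ∂m =
      ENNReal.ofReal ((α + b) * m.real A + β * ∫ y in A, g y ^ 2 ∂m) := by
  have hfinm : IsFiniteMeasure (m.restrict A) := ⟨by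
    rw [Measure.restrict_apply_univ]; exact hAf.lt_top⟩
  have hint : Integrable (fun y => g y ^ 2) (m.restrict A) := by
    apply Integrable.of_bound (hg.pow_const 2).aestronglyMeasurable 1
    refine Eventually.of_forall fun y => ?_
    rw [Real.norm_eq_abs, abs_pow]
    exact pow_le_one₀ (abs_nonneg _) (hg1 y)
  have hint2 : Integrable (fun y => (α + b) + β * g y ^ 2) (m.restrict A) :=
    (integrable_const _).add (hint.const_mul β)
  have h1 : ∀ y, H (g y) + b = (α + b) + β * g y ^ 2 := fun y => by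
    rw [hH _ (hg1 y)]
    ring
  simp only [h1]
  rw [← ofReal_integral_eq_lintegral_ofReal hint2 (Eventually.of_forall fun y => by
    have := h0 _ (hg1 y)
    have h2 := h1 y
    show 0 ≤ (α + b) + β * g y ^ 2
    rw [← h2]
    linarith only [this, hb])]
  congr 1
  rw [integral_add (integrable_const _) (hint.const_mul β), integral_const, integral_const_mul,
    smul_eq_mul, measureReal_restrict_apply_univ, mul_comm (m.real A)]

/-- real form of the comparison -/
theorem pair_real {X : Type u} [MetricSpace X] [SecondCountableTopology X] [MeasurableSpace X]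
    [BorelSpace X] {m : Measure X} {n : ℕ} {Q R₀ : ℝ} (h : Contr m (n : ℝ) Q R₀)
    (hfin : ∀ (x : X) (r : ℝ), m (ball x r) < ∞) (hQ0 : 0 < Q)
    {x x' : X} {s R' lam κ₀ η θ r₂ : ℝ} (hs : 0 < s) (hd : dist x x' = s) {A : Set X}
    (hA : MeasurableSet A) (hAx : A ⊆ ball x R') (hAx' : A ⊆ ball x' R') (hR'0 : 0 < R')
    (hR' : R' ≤ R₀) (hlam : 0 < lam) (ht1 : lam * s < R') (hκ₀ : 0 < κ₀) (hκ₀3 : κ₀ ≤ 1 / 3)
    (hη : 0 < η) (hθ : 0 ≤ θ) (hηθ : η + θ ≤ 1) (hr₂ : (lam + 3) * s ≤ r₂)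
    {f : X → Eu n} (hf : Measurable f)
    (hf1 : ∀ y ∈ ball x r₂, ∀ z ∈ ball x r₂, |dist (f y) (f z) - dist y z| ≤ θ * s)
    (hf2 : ∀ w ∈ ball (f x) ((lam + 3) * s), ∃ z ∈ ball x r₂, dist (f z) w ≤ θ * s)
    {D : ℝ} (hD0 : 0 < D)
    (hD : ∀ z ∈ ball x r₂, m.real (ball z ((η + 2 * θ) * s)) ≤ D * ((η + 2 * θ) * s) ^ n)
    {Ψ : ℝ → ℝ} (hΨc : Continuous Ψ) (hΨa : Antitone Ψ) (hΨ0 : ∀ u, 0 ≤ Ψ u)
    (hΨL : ∀ u v, |Ψ u - Ψ v| ≤ 4 * |u - v|) {e : Eu n} (he : ‖e‖ = 1) {α β : ℝ}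
    (hαβ : ∀ u, |u| ≤ 1 → Ψ u + Ψ (-u) = α + β * u ^ 2) :
    α * m.real A + β * ∫ y in A, ((dist x y - dist x' y) / s) ^ 2 ∂m ≤
      D * R' ^ n / Q * ((η + 2 * θ) / η) ^ n * ((lam + 3) / lam) ^ n *
        (α + β * avg e (lam + 3) + (32 * κ₀ + 16 * (θ + η) + 8 * θ)) := by
  set b : ℝ := 32 * κ₀ + 16 * (θ + η) + 8 * θ with hb
  have hb0 : 0 ≤ b := by positivity
  have hmain := pair_bound h hfin hQ0 hs hd hA hAx hAx' hR'0 hR' hlam ht1 hκ₀ hκ₀3 hη hθ hηθ hr₂
    hf hf1 hf2 (C := ENNReal.ofReal (D * ((η + 2 * θ) * s) ^ n)) (fun z hz =>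
      (ENNReal.le_ofReal_iff_toReal_le (hfin _ _).ne (by positivity)).2 (hD z hz))
    hΨc hΨa hΨ0 hΨL he
  have hAf : m A ≠ ∞ := ((measure_mono hAx).trans_lt (hfin x R')).ne
  have hgm : Measurable fun y => (dist x y - dist x' y) / s :=
    (((continuous_const.dist continuous_id).sub (continuous_const.dist continuous_id)).div_const
      s).measurable
  have hg1 : ∀ y, |(dist x y - dist x' y) / s| ≤ 1 := fun y => by
    rw [abs_div, abs_of_pos hs, div_le_one hs, ← hd]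
    exact abs_dist_sub_le x x' y
  have hγm : Measurable fun w : Eu n => ‖w‖ - ‖w - e‖ :=
    measurable_norm.sub (measurable_id.sub_const _).norm
  have hγ1 : ∀ w : Eu n, |‖w‖ - ‖w - e‖| ≤ 1 := fun w => by
    refine (abs_norm_sub_norm_le _ _).trans ?_
    rw [sub_sub_cancel, he]
  set H : ℝ → ℝ := fun u => Ψ u + Ψ (-u) with hH
  have hH0 : ∀ u, |u| ≤ 1 → 0 ≤ H u := fun u _ => add_nonneg (hΨ0 _) (hΨ0 _)
  have e1 := lint_quad (m := m) hA hAf hgm hg1 (H := H) (α := α) (β := β) (b := 0) hαβ hH0 le_rfl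
  simp only [add_zero] at e1
  have e2 := lint_quad (m := (volume : Measure (Eu n))) (measurableSet_ball (x := 0)
    (ε := lam + 3)) measure_ball_lt_top.ne hγm hγ1 (H := H) (α := α) (β := β) (b := b) hαβ hH0 hb0
  have hvol : ∀ r : ℝ, 0 < r → volume (ball (0 : Eu n) r) =
      ENNReal.ofReal (r ^ n) * volume (ball (0 : Eu n) 1) := fun r hr => by
    rw [Measure.addHaar_ball_of_pos volume (0 : Eu n) hr, finrank_euclideanSpace_fin]
  have hω0 : 0 < volume.real (ball (0 : Eu n) 1) :=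
    ENNReal.toReal_pos (measure_ball_pos _ _ one_pos).ne' measure_ball_lt_top.ne
  set ω : ℝ := volume.real (ball (0 : Eu n) 1) with hω
  have hωof : volume (ball (0 : Eu n) 1) = ENNReal.ofReal ω :=
    (ENNReal.ofReal_toReal measure_ball_lt_top.ne).symm
  have hlam3 : 0 < lam + 3 := by linarith only [hlam]
  have hvρ : volume.real (ball (0 : Eu n) (lam + 3)) = (lam + 3) ^ n * ω := by
    rw [Measure.real, hvol _ hlam3, ENNReal.toReal_mul, ENNReal.toReal_ofReal (by positivity)]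
    rfl
  have hvρ0 : 0 < volume.real (ball (0 : Eu n) (lam + 3)) := by rw [hvρ]; positivity
  -- evaluate
  have hLHS : ∫⁻ y in A, ENNReal.ofReal (Ψ ((dist x y - dist x' y) / s) +
        Ψ (-((dist x y - dist x' y) / s))) ∂m =
      ENNReal.ofReal (α * m.real A + β * ∫ y in A, ((dist x y - dist x' y) / s) ^ 2 ∂m) := e1
  have hRHS : ∫⁻ w in ball (0 : Eu n) (lam + 3),
        ENNReal.ofReal (Ψ (‖w‖ - ‖w - e‖) + Ψ (-(‖w‖ - ‖w - e‖)) + b) =
      ENNReal.ofReal ((lam + 3) ^ n * ω * (α + β * avg e (lam + 3) + b)) := by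
    refine e2.trans ?_
    congr 1
    rw [avg, ← hvρ]
    field_simp
    ring
  rw [hLHS, hRHS, hvol _ (by positivity), hωof, ← ENNReal.ofReal_mul (by positivity),
    ← ENNReal.ofReal_mul (by positivity), ← ENNReal.ofReal_mul (by positivity),
    ← ENNReal.ofReal_mul (by positivity), ← ENNReal.ofReal_mul (by positivity)] at hmain
  -- nonnegativity of the right side
  have hR0 : 0 ≤ α + β * avg e (lam + 3) + b := by
    have hJ0 : 0 ≤ ∫ w in ball (0 : Eu n) (lam + 3), (‖w‖ - ‖w - e‖) ^ 2 :=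
      integral_nonneg fun w => sq_nonneg _
    have hJ1 : ∫ w in ball (0 : Eu n) (lam + 3), (‖w‖ - ‖w - e‖) ^ 2 ≤
        volume.real (ball (0 : Eu n) (lam + 3)) := by
      have hbd : ∀ w ∈ ball (0 : Eu n) (lam + 3), ‖(‖w‖ - ‖w - e‖) ^ 2‖ ≤ 1 := fun w _ => by
        rw [Real.norm_eq_abs, abs_pow]
        exact pow_le_one₀ (abs_nonneg _) (hγ1 w)
      have := norm_setIntegral_le_of_norm_le_const (μ := (volume : Measure (Eu n)))
        measure_ball_lt_top hbd
      rw [one_mul] at this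
      exact (le_abs_self _).trans this
    have ha0 : 0 ≤ avg e (lam + 3) := div_nonneg hJ0 hvρ0.le
    have ha1 : avg e (lam + 3) ≤ 1 := (div_le_one hvρ0).2 hJ1
    have hα : 0 ≤ α := by
      have h1 := hαβ 0 (by simp)
      have h2 := hH0 0 (by simp)
      rw [hH] at h2
      simp only at h2
      rw [h1] at h2
      simpa using h2
    have hαβ' : 0 ≤ α + β := by
      have h1 := hαβ 1 (by simp)
      have h2 := hH0 1 (by simp)
      rw [hH] at h2
      simp only at h2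
      rw [h1] at h2
      simpa using h2
    nlinarith only [ha0, ha1, hα, hαβ', hb0]
  have hmain2 := (ENNReal.ofReal_le_ofReal_iff (by positivity)).1 hmain
  rw [Real.rpow_natCast] at hmain2
  set T : ℝ := α * m.real A + β * ∫ y in A, ((dist x y - dist x' y) / s) ^ 2 ∂m with hT
  set Z : ℝ := α + β * avg e (lam + 3) + b with hZ
  have hpos : 0 < Q * (lam * s / R') ^ n * ((η * s) ^ n * ω) := by positivity
  have key : Q * (lam * s / R') ^ n * ((η * s) ^ n * ω) * T ≤
      Q * (lam * s / R') ^ n * ((η * s) ^ n * ω) *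
        (D * R' ^ n / Q * ((η + 2 * θ) / η) ^ n * ((lam + 3) / lam) ^ n * Z) := by
    have e3 : Q * (lam * s / R') ^ n * ((η * s) ^ n * ω) *
        (D * R' ^ n / Q * ((η + 2 * θ) / η) ^ n * ((lam + 3) / lam) ^ n * Z) =
        D * ((η + 2 * θ) * s) ^ n * (s ^ n * ((lam + 3) ^ n * ω * Z)) := by
      simp only [div_pow, mul_pow]
      field_simp
    rw [e3]
    calc _ = Q * (lam * s / R') ^ n * ((η * s) ^ n * ω * T) := by ring
      _ ≤ _ := hmain2
  exact le_of_mul_le_mul_left key hpos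

end Vale.Agent.P242.H373
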