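import Vale.Agent.P242.H373.PairReal

set_option linter.all false

open MeasureTheory Set Metric Filter Topology TopologicalSpace
open scoped ENNReal

universe u v

namespace Vale.Agent.P242.H373

open H124

/-- the contraction property at scale `R` when `K R² ≥ -Λ`, `Λ` small -/
theorem contr_small {N Q : ℝ} (hN : 1 < N) (hQ0 : 0 < Q) (hQ : Q < 1) :
    ∃ Λ : ℝ, 0 < Λ ∧ ∀ {X : Type u} [MetricSpace X] [CompleteSpace X]
      [SecondCountableTopology X] [MeasurableSpace X] [BorelSpace X] (m : Measure X) (K R : ℝ),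
      (∀ (x : X) (r : ℝ), m (ball x r) < ∞) → (∀ (x : X) (r : ℝ), 0 < r → 0 < m (ball x r)) →
      (IsCD K N m ∨ IsMCP K N m) → 0 < R → -Λ ≤ K * R ^ 2 → Contr m N Q R := by
  have hM : 0 < N - 1 := by linarith
  set q : ℝ := Q ^ (1 / (N - 1)) with hq
  have hq0 : 0 < q := Real.rpow_pos_of_pos hQ0 _
  have hq1 : q < 1 := Real.rpow_lt_one hQ0.le hQ (by positivity)
  have h1q : 0 < 1 - q := by linarith only [hq1]
  have hqQ : q ^ (N - 1) = Q := by
    rw [hq, ← Real.rpow_mul hQ0.le, one_div, inv_mul_cancel₀ hM.ne', Real.rpow_one]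
  refine ⟨(N - 1) * ((1 - q) / 2) ^ 2, by positivity, ?_⟩
  intro X _ _ _ _ _ m K R₁ hfin hpos hK hR₁ hKR x R κ t hR hRR hκ hκR ht0 ht1 A hA hAsub
  have hτ : ∀ θ, 0 ≤ θ → θ ≤ 2 * R₁ → ∀ t, 0 < t → t ≤ 1 →
      ENNReal.ofReal (Q * t ^ N) ≤ tauCoeff K N t θ ^ N := by
    intro θ hθ0 hθ t ht0 ht1
    apply tau_of_sigma hN hQ0 hq0 hqQ ht0
    rcases le_or_gt 0 K with hK | hK
    · refine le_trans ?_ (sigma_lower_nonneg hM hK ht0 ht1 hθ0)
      apply ENNReal.ofReal_le_ofReal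
      nlinarith only [ht0, hq1]
    · have h0 : √(|K| / (N - 1)) * R₁ ≤ (1 - q) / 2 := by
        apply le_of_sq_le_sq _ (by positivity)
        rw [mul_pow, Real.sq_sqrt (by positivity), abs_of_neg hK, div_mul_eq_mul_div,
          div_le_iff₀ hM]
        linarith only [hKR]
      have h1 : θ * √(|K| / (N - 1)) ≤ 1 - q := by
        have h3 : 0 ≤ √(|K| / (N - 1)) := Real.sqrt_nonneg _
        have h4 := mul_le_mul_of_nonneg_right hθ h3
        linarith only [h4, h0]
      have h2 := sigma_lower (K := K) hM (a₀ := 1 - q) (by linarith only [hq0]) ht0 ht1 hθ0 h1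
      have h3 : t * (1 - (1 - q)) = t * q := by ring
      rwa [h3] at h2
  have hθ₀ : 0 < 2 * R₁ := by positivity
  have h1 : ENNReal.ofReal (Q * t ^ N) * m A ≤ m (midSet (ball x κ) A t κ) := by
    rcases hK with hK | hK
    · exact contraction_cd hfin hpos hK hN hθ₀ hτ x R κ t hR (by linarith only [hRR]) hκ
        (by linarith only [hκR]) ht0 ht1 A hA hAsub
    · exact contraction_mcp hfin hK hN hθ₀ hτ x R κ t hR (by linarith only [hRR]) hκ
        (by linarith only [hκR]) ht0 ht1 A hA hAsub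
  have htop : m (midSet (ball x κ) A t κ) ≠ ∞ :=
    ((measure_mono (midSet_subset ht0 ht1 hκ hAsub)).trans_lt (hfin _ _)).ne
  have h2 := ENNReal.toReal_mono htop h1
  rwa [ENNReal.toReal_mul, ENNReal.toReal_ofReal (by positivity)] at h2

/-- truncation to `[-1, 1]` -/
def clamp (u : ℝ) : ℝ := max (-1) (min 1 u)

theorem clamp_le (u : ℝ) : clamp u ≤ 1 := max_le (by norm_num) (min_le_left _ _)

theorem le_clamp (u : ℝ) : -1 ≤ clamp u := le_max_left _ _

theorem clamp_mono {u v : ℝ} (h : u ≤ v) : clamp u ≤ clamp v :=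
  max_le_max le_rfl (min_le_min le_rfl h)

theorem clamp_continuous : Continuous clamp := by
  unfold clamp
  fun_prop

theorem clamp_sub_le (u v : ℝ) : |clamp u - clamp v| ≤ |u - v| := by
  unfold clamp
  rw [max_comm (-1), max_comm (-1), min_comm 1, min_comm 1]
  refine (abs_max_sub_max_le_abs _ _ _).trans ((abs_min_sub_min_le_max _ _ _ _).trans ?_)
  rw [sub_self, abs_zero]
  exact max_le le_rfl (abs_nonneg _)

theorem clamp_eq {u : ℝ} (h : |u| ≤ 1) : clamp u = u := by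
  have h1 := abs_le.1 h
  unfold clamp
  rw [min_eq_right h1.2, max_eq_right h1.1]

def Psi1 (u : ℝ) : ℝ := (1 - clamp u) ^ 2

def Psi2 (u : ℝ) : ℝ := 4 - (1 + clamp u) ^ 2

theorem Psi1_cont : Continuous Psi1 := (continuous_const.sub clamp_continuous).pow 2

theorem Psi2_cont : Continuous Psi2 := continuous_const.sub
  ((continuous_const.add clamp_continuous).pow 2)

theorem Psi1_anti : Antitone Psi1 := fun u v h => by
  have h1 := clamp_mono h
  have h2 := clamp_le v
  unfold Psi1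
  nlinarith only [h1, h2]

theorem Psi2_anti : Antitone Psi2 := fun u v h => by
  have h1 := clamp_mono h
  have h2 := le_clamp u
  unfold Psi2
  nlinarith only [h1, h2]

theorem Psi1_nonneg (u : ℝ) : 0 ≤ Psi1 u := sq_nonneg _

theorem Psi2_nonneg (u : ℝ) : 0 ≤ Psi2 u := by
  have h1 := clamp_le u
  have h2 := le_clamp u
  unfold Psi2
  nlinarith only [h1, h2]

theorem Psi1_lip (u v : ℝ) : |Psi1 u - Psi1 v| ≤ 4 * |u - v| := by
  have h1 := clamp_le u
  have h2 := le_clamp u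
  have h3 := clamp_le v
  have h4 := le_clamp v
  have h5 := clamp_sub_le u v
  have e : Psi1 u - Psi1 v = (clamp u - clamp v) * (clamp u + clamp v - 2) := by
    unfold Psi1; ring
  rw [e, abs_mul, mul_comm]
  have h6 : |clamp u + clamp v - 2| ≤ 4 := by
    rw [abs_le]; constructor <;> linarith only [h1, h2, h3, h4]
  exact mul_le_mul h6 h5 (abs_nonneg _) (by norm_num)

theorem Psi2_lip (u v : ℝ) : |Psi2 u - Psi2 v| ≤ 4 * |u - v| := by
  have h1 := clamp_le u
  have h2 := le_clamp u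
  have h3 := clamp_le v
  have h4 := le_clamp v
  have h5 := clamp_sub_le u v
  have e : Psi2 u - Psi2 v = (clamp u - clamp v) * (-(clamp u + clamp v + 2)) := by
    unfold Psi2; ring
  rw [e, abs_mul, mul_comm]
  have h6 : |-(clamp u + clamp v + 2)| ≤ 4 := by
    rw [abs_le]; constructor <;> linarith only [h1, h2, h3, h4]
  exact mul_le_mul h6 h5 (abs_nonneg _) (by norm_num)

theorem Psi1_sum (u : ℝ) (h : |u| ≤ 1) : Psi1 u + Psi1 (-u) = 2 + 2 * u ^ 2 := by
  unfold Psi1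
  rw [clamp_eq h, clamp_eq (by rwa [abs_neg])]
  ring

theorem Psi2_sum (u : ℝ) (h : |u| ≤ 1) : Psi2 u + Psi2 (-u) = 6 + (-2) * u ^ 2 := by
  unfold Psi2
  rw [clamp_eq h, clamp_eq (by rwa [abs_neg])]
  ring

/-- lower bound for the average -/
theorem avg_lower {n : ℕ} {e : Eu n} (he : ‖e‖ = 1) {ρ : ℝ} (hρ : 4 ≤ ρ) :
    (1 / 4) ^ n / 16 ≤ avg e ρ := by
  have hρ0 : 0 < ρ := by linarith only [hρ]
  have hvol : ∀ (c : Eu n) (r : ℝ), 0 < r → volume.real (ball c r) =
      r ^ n * volume.real (ball (0 : Eu n) 1) := fun c r hr => by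
    rw [Measure.real, Measure.addHaar_ball_of_pos volume c hr, finrank_euclideanSpace_fin,
      ENNReal.toReal_mul, ENNReal.toReal_ofReal (by positivity)]
    rfl
  have hω0 : 0 < volume.real (ball (0 : Eu n) 1) :=
    ENNReal.toReal_pos (measure_ball_pos _ _ one_pos).ne' measure_ball_lt_top.ne
  have hγ1 : ∀ w : Eu n, |‖w‖ - ‖w - e‖| ≤ 1 := fun w => by
    refine (abs_norm_sub_norm_le _ _).trans ?_
    rw [sub_sub_cancel, he]
  have hγm : Measurable fun w : Eu n => (‖w‖ - ‖w - e‖) ^ 2 :=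
    (measurable_norm.sub (measurable_id.sub_const _).norm).pow_const 2
  set c : Eu n := (3 * ρ / 4) • e with hc
  have hsub : ball c (ρ / 4) ⊆ ball (0 : Eu n) ρ := by
    intro w hw
    rw [mem_ball, dist_eq_norm] at hw
    rw [mem_ball_zero_iff]
    have h1 : ‖w‖ ≤ ‖w - c‖ + ‖c‖ := by
      have := norm_add_le (w - c) c
      rwa [sub_add_cancel] at this
    have h2 : ‖c‖ = 3 * ρ / 4 := by
      rw [hc, norm_smul, he, mul_one, Real.norm_eq_abs, abs_of_pos (by positivity)]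
    linarith only [h1, h2, hw]
  have hpt : ∀ w ∈ ball c (ρ / 4), (1 / 16 : ℝ) ≤ (‖w‖ - ‖w - e‖) ^ 2 := by
    intro w hw
    have hwρ := hsub hw
    rw [mem_ball_zero_iff] at hwρ
    rw [mem_ball, dist_eq_norm] at hw
    have h1 : ‖w‖ ^ 2 - ‖w - e‖ ^ 2 = 2 * inner ℝ w e - 1 := by
      rw [@norm_sub_sq_real, he]
      ring
    have h2 : inner ℝ w e = inner ℝ (w - c) e + 3 * ρ / 4 := by
      rw [inner_sub_left, hc, real_inner_smul_left, real_inner_self_eq_norm_sq, he]
      ring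
    have h3 := (abs_le.1 (abs_real_inner_le_norm (w - c) e)).1
    rw [he, mul_one] at h3
    have h4 : ρ - 1 ≤ ‖w‖ ^ 2 - ‖w - e‖ ^ 2 := by
      rw [h1, h2]
      linarith only [h3, hw]
    have h5 : ‖w - e‖ ≤ ‖w‖ + 1 := by
      have := norm_sub_le w e
      rwa [he] at this
    have h6 : ‖w‖ ^ 2 - ‖w - e‖ ^ 2 = (‖w‖ - ‖w - e‖) * (‖w‖ + ‖w - e‖) := by ring
    rw [h6] at h4
    have h7 : 0 ≤ ‖w‖ := norm_nonneg _
    have h8 : 0 ≤ ‖w - e‖ := norm_nonneg _
    have h9 : 1 / 4 ≤ ‖w‖ - ‖w - e‖ := by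
      by_contra hcon
      rw [not_le] at hcon
      have h10 : (‖w‖ - ‖w - e‖) * (‖w‖ + ‖w - e‖) ≤ 1 / 4 * (‖w‖ + ‖w - e‖) :=
        mul_le_mul_of_nonneg_right hcon.le (by linarith only [h7, h8])
      linarith only [h10, h4, h5, hwρ, hρ]
    nlinarith only [h9]
  have hfinb : IsFiniteMeasure (volume.restrict (ball (0 : Eu n) ρ)) := ⟨by
    rw [Measure.restrict_apply_univ]; exact measure_ball_lt_top⟩
  have hint : IntegrableOn (fun w : Eu n => (‖w‖ - ‖w - e‖) ^ 2) (ball (0 : Eu n) ρ) := by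
    apply Integrable.of_bound hγm.aestronglyMeasurable 1
    refine Eventually.of_forall fun y => ?_
    rw [Real.norm_eq_abs, abs_pow]
    exact pow_le_one₀ (abs_nonneg _) (hγ1 y)
  have h1 : ∫ w in ball c (ρ / 4), (‖w‖ - ‖w - e‖) ^ 2 ≤
      ∫ w in ball (0 : Eu n) ρ, (‖w‖ - ‖w - e‖) ^ 2 :=
    setIntegral_mono_set hint (Eventually.of_forall fun w => sq_nonneg _)
      (Eventually.of_forall hsub)
  have h2 : volume.real (ball c (ρ / 4)) * (1 / 16) ≤
      ∫ w in ball c (ρ / 4), (‖w‖ - ‖w - e‖) ^ 2 := by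
    have h3 : ∫ w in ball c (ρ / 4), (1 / 16 : ℝ) = volume.real (ball c (ρ / 4)) * (1 / 16) := by
      rw [setIntegral_const, smul_eq_mul]
    rw [← h3]
    apply setIntegral_mono_on _ (hint.mono_set hsub) measurableSet_ball hpt
    exact integrableOn_const measure_ball_lt_top.ne
  rw [avg, hvol 0 ρ hρ0, le_div_iff₀ (by positivity)]
  refine le_trans (le_of_eq ?_) (h2.trans h1)
  rw [hvol c (ρ / 4) (by positivity), div_pow, div_pow, one_pow]
  field_simp

end Vale.Agent.P242.H373
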