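import Vale.Agent.P242.H124.Final

set_option linter.all false

open MeasureTheory Set Metric Filter Topology TopologicalSpace
open scoped ENNReal

universe u v

namespace Vale.Agent.P242.H373

open H124

/-- in nonnegative curvature the distortion coefficient is at least the Euclidean one -/
theorem sigma_lower_nonneg {K M t θ : ℝ} (hM : 0 < M) (hK : 0 ≤ K) (ht0 : 0 < t) (ht1 : t ≤ 1)
    (hθ0 : 0 ≤ θ) : ENNReal.ofReal t ≤ sigmaCoeff K M t θ := by
  unfold sigmaCoeff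
  split_ifs with h1 h2 h3
  · exact le_top
  · apply ENNReal.ofReal_le_ofReal
    have hθp : 0 < θ := by
      rcases hθ0.lt_or_eq with h | h
      · exact h
      · rw [← h] at h2; simp at h2
    have hKp : 0 < K := by
      by_contra hcon
      have := mul_nonpos_of_nonpos_of_nonneg (not_lt.1 hcon) (sq_nonneg θ)
      linarith only [h2, this]
    set α := θ * √(K / M) with hα
    have hα0 : 0 < α := mul_pos hθp (Real.sqrt_pos.2 (div_pos hKp hM))
    have hαsq : α ^ 2 = K * θ ^ 2 / M := by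
      rw [hα, mul_pow, Real.sq_sqrt (by positivity)]
      ring
    have hαπ : α < Real.pi := by
      apply lt_of_pow_lt_pow_left₀ 2 Real.pi_pos.le
      rw [hαsq, div_lt_iff₀ hM]
      linarith only [not_le.1 h1]
    have hsin : 0 < Real.sin α := Real.sin_pos_of_pos_of_lt_pi hα0 hαπ
    rw [le_div_iff₀ hsin]
    have hconc : (1 - t) • Real.sin 0 + t • Real.sin α ≤ Real.sin ((1 - t) • (0 : ℝ) + t • α) :=
      strictConcaveOn_sin_Icc.concaveOn.2 ⟨le_refl _, Real.pi_pos.le⟩ ⟨hα0.le, hαπ.le⟩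
        (by linarith only [ht1]) ht0.le (by ring)
    simp only [smul_eq_mul, mul_zero, zero_add, Real.sin_zero] at hconc
    exact hconc
  · exact le_refl _
  · exfalso
    have := mul_nonneg hK (sq_nonneg θ)
    rcases this.lt_or_eq with h | h
    · exact h2 h
    · exact h3 h.symm

theorem tau_of_sigma {K N Q q t θ : ℝ} (hN : 1 < N) (hQ0 : 0 < Q) (hq0 : 0 < q)
    (hqQ : q ^ (N - 1) = Q) (ht0 : 0 < t)
    (h2 : ENNReal.ofReal (t * q) ≤ sigmaCoeff K (N - 1) t θ) :
    ENNReal.ofReal (Q * t ^ N) ≤ tauCoeff K N t θ ^ N := by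
  unfold tauCoeff
  rw [ENNReal.mul_rpow_of_nonneg _ _ (by linarith only [hN]), ← ENNReal.rpow_mul, ← ENNReal.rpow_mul,
    one_div, inv_mul_cancel₀ (by linarith only [hN]), ENNReal.rpow_one, div_mul_cancel₀ _ (by linarith only [hN])]
  calc ENNReal.ofReal (Q * t ^ N) = ENNReal.ofReal t * ENNReal.ofReal (t * q) ^ (N - 1) := by
        rw [ENNReal.ofReal_rpow_of_pos (by positivity), ← ENNReal.ofReal_mul ht0.le]
        congr 1
        rw [Real.mul_rpow ht0.le hq0.le, hqQ, ← mul_assoc]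
        have : t * t ^ (N - 1) = t ^ N := by
          rw [Real.rpow_sub_one ht0.ne']
          (clear * - ht0; field_simp)
        rw [this, mul_comm]
    _ ≤ _ := by
        (clear * - h2 hN; gcongr)

/-- scale invariant comparison of the distortion coefficients with the Euclidean ones -/
theorem tau_lower_scale {N Q Λ : ℝ} (hN : 1 < N) (hQ0 : 0 < Q) (hQ : Q < 1) (hΛ : 0 ≤ Λ) :
    ∃ c : ℝ, 0 < c ∧ ∀ K R : ℝ, 0 < R → -Λ ≤ K * R ^ 2 → ∀ θ, 0 ≤ θ → θ ≤ c * R →
      ∀ t, 0 < t → t ≤ 1 → ENNReal.ofReal (Q * t ^ N) ≤ tauCoeff K N t θ ^ N := by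
  have hM : 0 < N - 1 := by linarith
  set q : ℝ := Q ^ (1 / (N - 1)) with hq
  have hq0 : 0 < q := Real.rpow_pos_of_pos hQ0 _
  have hq1 : q < 1 := Real.rpow_lt_one hQ0.le hQ (by positivity)
  have hqQ : q ^ (N - 1) = Q := by
    rw [hq, ← Real.rpow_mul hQ0.le, one_div, inv_mul_cancel₀ hM.ne', Real.rpow_one]
  have hpos : 0 < √(Λ / (N - 1)) + 1 := by (clear * -; positivity)
  refine ⟨(1 - q) / (√(Λ / (N - 1)) + 1), div_pos (by linarith only [hq1]) hpos, ?_⟩
  intro K R hR hKR θ hθ0 hθ t ht0 ht1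
  apply tau_of_sigma hN hQ0 hq0 hqQ ht0
  rcases le_or_gt 0 K with hK | hK
  · refine le_trans ?_ (sigma_lower_nonneg hM hK ht0 ht1 hθ0)
    apply ENNReal.ofReal_le_ofReal
    nlinarith only [ht0, hq1]
  · have h0 : √(|K| / (N - 1)) * R ≤ √(Λ / (N - 1)) := by
      apply Real.le_sqrt_of_sq_le
      rw [mul_pow, Real.sq_sqrt (by positivity), abs_of_neg hK, div_mul_eq_mul_div]
      apply div_le_div_of_nonneg_right _ hM.le
      linarith only [hKR]
    have h1 : θ * √(|K| / (N - 1)) ≤ 1 - q := by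
      rw [div_mul_eq_mul_div, le_div_iff₀ hpos] at hθ
      have h3 : 0 ≤ √(|K| / (N - 1)) := Real.sqrt_nonneg _
      have h4 : θ * √(|K| / (N - 1)) * (√(Λ / (N - 1)) + 1) ≤ (1 - q) * R * √(|K| / (N - 1)) := by
        calc θ * √(|K| / (N - 1)) * (√(Λ / (N - 1)) + 1) =
            θ * (√(Λ / (N - 1)) + 1) * √(|K| / (N - 1)) := by ring
          _ ≤ _ := mul_le_mul_of_nonneg_right hθ h3
      have h5 : (1 - q) * R * √(|K| / (N - 1)) ≤ (1 - q) * √(Λ / (N - 1)) := by
        calc (1 - q) * R * √(|K| / (N - 1)) = (1 - q) * (√(|K| / (N - 1)) * R) := by ring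
          _ ≤ _ := mul_le_mul_of_nonneg_left h0 (by linarith only [hq1])
      have h6 : (1 - q) * √(Λ / (N - 1)) ≤ (1 - q) * (√(Λ / (N - 1)) + 1) := by
        nlinarith only [hq1]
      exact le_of_mul_le_mul_right (h4.trans (h5.trans h6)) hpos
    have h2 := sigma_lower (K := K) hM (a₀ := 1 - q) (by linarith only [hq0]) ht0 ht1 hθ0 h1
    have h3 : t * (1 - (1 - q)) = t * q := by ring
    rwa [h3] at h2

/-- the contraction property at scales comparable to `R` when `K R² ≥ -Λ` -/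
theorem contr_scale {N Q Λ : ℝ} (hN : 1 < N) (hQ0 : 0 < Q) (hQ : Q < 1) (hΛ : 0 ≤ Λ) :
    ∃ c : ℝ, 0 < c ∧ ∀ {X : Type u} [MetricSpace X] [CompleteSpace X]
      [SecondCountableTopology X] [MeasurableSpace X] [BorelSpace X] (m : Measure X) (K R : ℝ),
      (∀ (x : X) (r : ℝ), m (ball x r) < ∞) → (∀ (x : X) (r : ℝ), 0 < r → 0 < m (ball x r)) →
      (IsCD K N m ∨ IsMCP K N m) → 0 < R → -Λ ≤ K * R ^ 2 → Contr m N Q (c * R) := by
  obtain ⟨c, hc, hτ⟩ := tau_lower_scale (Λ := Λ) hN hQ0 hQ hΛ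
  refine ⟨c / 2, by positivity, ?_⟩
  intro X _ _ _ _ _ m K R₁ hfin hpos hK hR₁ hKR x R κ t hR hRR hκ hκR ht0 ht1 A hA hAsub
  have hθ₀ : 0 < c * R₁ := by positivity
  have e : c / 2 * R₁ = c * R₁ / 2 := by ring
  rw [e] at hRR hκR
  have h1 : ENNReal.ofReal (Q * t ^ N) * m A ≤ m (midSet (ball x κ) A t κ) := by
    rcases hK with hK | hK
    · exact contraction_cd hfin hpos hK hN hθ₀ (hτ K R₁ hR₁ hKR) x R κ t hR hRR hκ hκR ht0 ht1 A
        hA hAsub
    · exact contraction_mcp hfin hK hN hθ₀ (hτ K R₁ hR₁ hKR) x R κ t hR hRR hκ hκR ht0 ht1 A hA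
        hAsub
  have htop : m (midSet (ball x κ) A t κ) ≠ ∞ :=
    ((measure_mono (midSet_subset ht0 ht1 hκ hAsub)).trans_lt (hfin _ _)).ne
  have h2 := ENNReal.toReal_mono htop h1
  rwa [ENNReal.toReal_mul, ENNReal.toReal_ofReal (by positivity)] at h2

end Vale.Agent.P242.H373
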