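import Vale.Agent.P242.H124.Final
import Mathlib.Analysis.InnerProductSpace.Completion
import Mathlib.Order.Filter.Ultrafilter.Basic

set_option linter.all false

open MeasureTheory Set Metric Filter Topology TopologicalSpace
open scoped ENNReal

universe u v

namespace Vale.Agent.P242.H373

/-- bounded families of vectors of `ℓ²` -/
def bddFam (ι : Type u) : Submodule ℝ (ι → EllTwo) where
  carrier := {g | ∃ C : ℝ, ∀ i, ‖g i‖ ≤ C}
  add_mem' := by
    rintro f g ⟨C, hC⟩ ⟨D, hD⟩
    exact ⟨C + D, fun i => (norm_add_le _ _).trans (add_le_add (hC i) (hD i))⟩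
  zero_mem' := ⟨0, fun i => by simp⟩
  smul_mem' := by
    rintro c f ⟨C, hC⟩
    refine ⟨|c| * C, fun i => ?_⟩
    rw [Pi.smul_apply, norm_smul, Real.norm_eq_abs]
    exact mul_le_mul_of_nonneg_left (hC i) (abs_nonneg c)

/-- a copy without the product topology -/
def Fam (ι : Type u) : Type u := bddFam ι

noncomputable instance (ι : Type u) : AddCommGroup (Fam ι) :=
  inferInstanceAs (AddCommGroup (bddFam ι))
noncomputable instance (ι : Type u) : Module ℝ (Fam ι) := inferInstanceAs (Module ℝ (bddFam ι))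

variable {ι : Type u} (U : Ultrafilter ι)

theorem exists_lim {u : ι → ℝ} {C : ℝ} (h : ∀ i, |u i| ≤ C) :
    ∃ l, Tendsto u (U : Filter ι) (𝓝 l) := by
  have h1 : (U.map u : Filter ℝ) ≤ 𝓟 (Icc (-C) C) :=
    tendsto_principal.2 (Eventually.of_forall fun i => abs_le.1 (h i))
  obtain ⟨l, -, hl⟩ := (isCompact_Icc (a := -C) (b := C)).ultrafilter_le_nhds (U.map u) h1
  exact ⟨l, hl⟩

theorem inner_lim (f g : Fam ι) :
    Tendsto (fun i => inner ℝ (f.1 i) (g.1 i)) (U : Filter ι)
      (𝓝 (limUnder (U : Filter ι) fun i => inner ℝ (f.1 i) (g.1 i))) := by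
  obtain ⟨C, hC⟩ := f.2
  obtain ⟨D, hD⟩ := g.2
  apply tendsto_nhds_limUnder
  apply exists_lim U (C := C * D)
  intro i
  refine (abs_real_inner_le_norm _ _).trans ?_
  exact mul_le_mul (hC i) (hD i) (norm_nonneg _) ((norm_nonneg _).trans (hC i))

/-- the limit inner product -/
@[instance_reducible]
noncomputable def core : PreInnerProductSpace.Core ℝ (Fam ι) where
  inner f g := limUnder (U : Filter ι) fun i => inner ℝ (f.1 i) (g.1 i)
  conj_inner_symm f g := by
    show limUnder (U : Filter ι) (fun i => inner ℝ (g.1 i) (f.1 i)) = _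
    congr 1
    ext i
    exact real_inner_comm _ _
  re_inner_nonneg f := by
    show 0 ≤ limUnder (U : Filter ι) (fun i => inner ℝ (f.1 i) (f.1 i))
    exact ge_of_tendsto (inner_lim U f f) (Eventually.of_forall fun i => real_inner_self_nonneg)
  add_left f g k := by
    have h := (inner_lim U f k).add (inner_lim U g k)
    refine tendsto_nhds_unique (inner_lim U (f + g) k) (h.congr fun i => ?_)
    exact (inner_add_left (f.1 i) (g.1 i) (k.1 i)).symm
  smul_left f g c := by
    have h := (inner_lim U f g).const_mul c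
    refine tendsto_nhds_unique (inner_lim U (c • f) g) (h.congr fun i => ?_)
    exact (real_inner_smul_left (f.1 i) (g.1 i) c).symm

/-- limits of bounded families of maps to `ℓ²` -/
theorem exists_ultralimit {Y : Type v} (F : ι → Y → EllTwo)
    (hF : ∀ y, ∃ C : ℝ, ∀ i, ‖F i y‖ ≤ C) :
    ∃ (H : Type u) (_ : NormedAddCommGroup H) (_ : InnerProductSpace ℝ H) (_ : CompleteSpace H)
      (G : Y → H), ∀ a b, Tendsto (fun i => dist (F i a) (F i b)) (U : Filter ι)
        (𝓝 (dist (G a) (G b))) := by
  letI cd : PreInnerProductSpace.Core ℝ (Fam ι) := core U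
  letI i1 : SeminormedAddCommGroup (Fam ι) := InnerProductSpace.Core.toSeminormedAddCommGroup (𝕜 := ℝ)
  letI i2 : InnerProductSpace ℝ (Fam ι) := InnerProductSpace.ofCore cd
  let g : Y → Fam ι := fun y => ⟨fun i => F i y, hF y⟩
  refine ⟨UniformSpace.Completion (Fam ι), inferInstance, inferInstance, inferInstance,
    fun y => (g y : UniformSpace.Completion (Fam ι)), fun a b => ?_⟩
  rw [UniformSpace.Completion.dist_eq, dist_eq_norm]
  have h1 : ‖g a - g b‖ = √(limUnder (U : Filter ι)
      fun i => inner ℝ ((g a - g b).1 i) ((g a - g b).1 i)) := rfl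
  rw [h1]
  have h2 := (Real.continuous_sqrt.tendsto _).comp (inner_lim U (g a - g b) (g a - g b))
  refine h2.congr fun i => ?_
  show √(inner ℝ (F i a - F i b) (F i a - F i b)) = _
  rw [real_inner_self_eq_norm_sq, Real.sqrt_sq (norm_nonneg _), dist_eq_norm]

end Vale.Agent.P242.H373
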